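import Vale.Agent.P095.General.Spread.States

/-!
Pairs of sequences which agree asymptotically in the two-norms of a sequence of states, tested
against sequences asymptotically commuting with prescribed ones.
-/

noncomputable section

open scoped ComplexOrder
open Filter Topology

namespace Vale.Agent.P095.General.Spread

universe u

variable {D : Type u} [CStarAlgebra D]

/-- Bounded sequences. -/
def Bd (a : ℕ → D) : Prop := ∃ C : ℝ, ∀ n, ‖a n‖ ≤ C

lemma Bd.const (x : D) : Bd fun _ => x := ⟨‖x‖, fun _ => le_rfl⟩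

lemma Bd.add {a b : ℕ → D} (ha : Bd a) (hb : Bd b) : Bd (a + b) :=
  let ⟨A, hA⟩ := ha; let ⟨B, hB⟩ := hb
  ⟨A + B, fun n => (norm_add_le _ _).trans (add_le_add (hA n) (hB n))⟩

lemma Bd.mul {a b : ℕ → D} (ha : Bd a) (hb : Bd b) : Bd (a * b) :=
  let ⟨A, hA⟩ := ha; let ⟨B, hB⟩ := hb
  ⟨A * B, fun n => (norm_mul_le _ _).trans
    (mul_le_mul (hA n) (hB n) (norm_nonneg _) ((norm_nonneg _).trans (hA n)))⟩

lemma Bd.star' {a : ℕ → D} (ha : Bd a) : Bd (star a) :=
  let ⟨A, hA⟩ := ha; ⟨A, fun n => (norm_star (a n)).trans_le (hA n)⟩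

lemma Bd.smul' {a : ℕ → D} (ha : Bd a) (z : ℂ) : Bd (z • a) :=
  let ⟨A, hA⟩ := ha
  ⟨‖z‖ * A, fun n => (norm_smul_le z (a n)).trans (mul_le_mul_of_nonneg_left (hA n) (norm_nonneg z))⟩

/-- Asymptotically commuting with the members of a set of sequences. -/
def AC (Ks : Set (ℕ → D)) (w : ℕ → D) : Prop :=
  Bd w ∧ ∀ k ∈ Ks, Tendsto (fun n => ‖k n * w n - w n * k n‖) atTop (𝓝 0)

variable {Ks : Set (ℕ → D)} (hK : ∀ k ∈ Ks, Bd k ∧ star k ∈ Ks)

lemma AC.scalar (c : ℕ → ℂ) {C : ℝ} (hc : ∀ n, ‖c n‖ ≤ C) : AC Ks fun n => c n • 1 := by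
  refine ⟨⟨C * ‖(1 : D)‖, fun n => (norm_smul_le _ _).trans
    (mul_le_mul_of_nonneg_right (hc n) (norm_nonneg _))⟩, fun k _ => ?_⟩
  simp

lemma AC.one : AC Ks (1 : ℕ → D) := by
  simpa [← Pi.one_def] using AC.scalar (Ks := Ks) (fun _ => 1) (C := 1) fun _ => by simp

lemma AC.add {a b : ℕ → D} (ha : AC Ks a) (hb : AC Ks b) : AC Ks (a + b) := by
  refine ⟨ha.1.add hb.1, fun k hk => ?_⟩
  refine squeeze_zero (fun _ => norm_nonneg _) (fun n => ?_)
    (by simpa using (ha.2 k hk).add (hb.2 k hk))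
  rw [Pi.add_apply, mul_add, add_mul, add_sub_add_comm]
  exact norm_add_le _ _

lemma AC.smul' {a : ℕ → D} (ha : AC Ks a) (z : ℂ) : AC Ks (z • a) := by
  refine ⟨ha.1.smul' z, fun k hk => ?_⟩
  refine squeeze_zero (fun _ => norm_nonneg _) (fun n => ?_)
    (by simpa using (ha.2 k hk).const_mul ‖z‖)
  rw [Pi.smul_apply, mul_smul_comm, smul_mul_assoc, ← smul_sub]
  exact norm_smul_le _ _

lemma AC.mul {a b : ℕ → D} (ha : AC Ks a) (hb : AC Ks b) : AC Ks (a * b) := by
  refine ⟨ha.1.mul hb.1, fun k hk => ?_⟩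
  obtain ⟨A, hA⟩ := ha.1
  obtain ⟨B, hB⟩ := hb.1
  refine squeeze_zero (fun _ => norm_nonneg _) (fun n => ?_)
    (by simpa using ((ha.2 k hk).mul_const B).add ((hb.2 k hk).const_mul A))
  have e : k n * (a * b) n - (a * b) n * k n =
      (k n * a n - a n * k n) * b n + a n * (k n * b n - b n * k n) := by
    simp only [Pi.mul_apply, sub_mul, mul_sub, mul_assoc]; abel
  rw [e]
  exact (norm_add_le _ _).trans (add_le_add
    ((norm_mul_le _ _).trans (mul_le_mul_of_nonneg_left (hB n) (norm_nonneg _)))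
    ((norm_mul_le _ _).trans (mul_le_mul_of_nonneg_right (hA n) (norm_nonneg _))))

include hK in
lemma AC.star' {a : ℕ → D} (ha : AC Ks a) : AC Ks (star a) := by
  refine ⟨ha.1.star', fun k hk => ?_⟩
  refine (ha.2 _ (hK k hk).2).congr fun n => ?_
  rw [Pi.star_apply, Pi.star_apply, ← norm_star, star_sub, star_mul, star_mul, star_star,
    norm_sub_rev]

variable (F : ℕ → D → ℂ) (hF : ∀ n, F n ∈ St D)

/-- The differences vanish in two-norm after multiplication with asymptotically commuting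
sequences. -/
def Close (Ks : Set (ℕ → D)) (a b : ℕ → D) : Prop :=
  ∀ w, AC Ks w → Tendsto (fun n => St.nrm (hF n) ((a n - b n) * w n)) atTop (𝓝 0)

/-- Agreement, for both the sequences and their adjoints. -/
def Agree (Ks : Set (ℕ → D)) (a b : ℕ → D) : Prop :=
  Bd a ∧ AC Ks b ∧ Close F hF Ks a b ∧ Close F hF Ks (star a) (star b)

variable {F} {hF}

lemma Close.add {a a' b b' : ℕ → D} (h : Close F hF Ks a b) (h' : Close F hF Ks a' b') :
    Close F hF Ks (a + a') (b + b') := fun w hw =>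
  squeeze_zero (fun n => St.nrm_nonneg (hF n) _)
    (g := fun n => St.nrm (hF n) ((a n - b n) * w n) + St.nrm (hF n) ((a' n - b' n) * w n))
    (fun n => by
      rw [Pi.add_apply, Pi.add_apply, add_sub_add_comm, add_mul]
      exact St.nrm_add_le (hF n) _ _) (by simpa using (h w hw).add (h' w hw))

lemma Close.smul' {a b : ℕ → D} (h : Close F hF Ks a b) (z : ℂ) :
    Close F hF Ks (z • a) (z • b) := fun w hw => by
  simpa [← smul_sub, St.nrm_smul] using (h w hw).const_mul ‖z‖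

lemma Close.mul {a a' b b' : ℕ → D} (ha : Bd a) (hb' : AC Ks b') (h : Close F hF Ks a b)
    (h' : Close F hF Ks a' b') : Close F hF Ks (a * a') (b * b') := fun w hw => by
  obtain ⟨A, hA⟩ := ha
  refine squeeze_zero (fun n => St.nrm_nonneg (hF n) _) (fun n => ?_)
    (by simpa using ((h' w hw).const_mul A).add (h (b' * w) (hb'.mul hw)))
  have e : ((a * a') n - (b * b') n) * w n =
      a n * ((a' n - b' n) * w n) + (a n - b n) * (b' * w) n := by
    simp only [Pi.mul_apply, sub_mul, mul_sub, mul_assoc]; abel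
  rw [e]
  exact (St.nrm_add_le (hF n) _ _).trans (add_le_add
    ((St.nrm_mul_le (hF n) _ _).trans (mul_le_mul_of_nonneg_right (hA n) (St.nrm_nonneg (hF n) _)))
    le_rfl)

lemma Agree.scalar (c : ℕ → ℂ) {C : ℝ} (hc : ∀ n, ‖c n‖ ≤ C) :
    Agree F hF Ks (fun n => c n • 1) (fun n => c n • 1) :=
  ⟨(AC.scalar (Ks := Ks) c hc).1, AC.scalar c hc,
    fun w _ => by simp [St.nrm, St.zero (hF _)], fun w _ => by simp [St.nrm, St.zero (hF _)]⟩

lemma Agree.add {a a' b b' : ℕ → D} (h : Agree F hF Ks a b) (h' : Agree F hF Ks a' b') :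
    Agree F hF Ks (a + a') (b + b') :=
  ⟨h.1.add h'.1, h.2.1.add h'.2.1, h.2.2.1.add h'.2.2.1, by
    rw [star_add, star_add]; exact h.2.2.2.add h'.2.2.2⟩

lemma Agree.smul' {a b : ℕ → D} (h : Agree F hF Ks a b) (z : ℂ) :
    Agree F hF Ks (z • a) (z • b) :=
  ⟨h.1.smul' z, h.2.1.smul' z, h.2.2.1.smul' z, by
    rw [star_smul, star_smul]; exact h.2.2.2.smul' _⟩

include hK

lemma Agree.star' {a b : ℕ → D} (h : Agree F hF Ks a b) : Agree F hF Ks (star a) (star b) :=
  ⟨h.1.star', h.2.1.star' hK, h.2.2.2, by rw [star_star, star_star]; exact h.2.2.1⟩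

lemma Agree.mul {a a' b b' : ℕ → D} (h : Agree F hF Ks a b) (h' : Agree F hF Ks a' b') :
    Agree F hF Ks (a * a') (b * b') :=
  ⟨h.1.mul h'.1, h.2.1.mul h'.2.1, h.2.2.1.mul h.1 h'.2.1 h'.2.2.1, by
    rw [star_mul, star_mul]
    exact h'.2.2.2.mul h'.1.star' (h.2.1.star' hK) h.2.2.2⟩

omit hK

/-- A scalar perturbation tending to zero. -/
lemma Close.of_scalar {a b : ℕ → D} (μ : ℕ → ℂ) (hμ : Tendsto (fun n => ‖μ n‖) atTop (𝓝 0))
    (h : ∀ n, a n - b n = μ n • 1) : Close F hF Ks a b := fun w hw => by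
  obtain ⟨W, hW⟩ := hw.1
  refine squeeze_zero (fun n => St.nrm_nonneg (hF n) _) (fun n => ?_)
    (by simpa using hμ.mul_const W)
  rw [h, smul_mul_assoc, one_mul, St.nrm_smul (hF n)]
  exact mul_le_mul_of_nonneg_left ((St.nrm_le_norm (hF n) _).trans (hW n)) (norm_nonneg _)

/-- A member of the set against a scalar close to it in two-norm. -/
lemma Close.of_member {a b : ℕ → D} (ha : a ∈ Ks) (hb : ∀ n x, Commute (b n) x)
    (h : Tendsto (fun n => St.nrm (hF n) (a n - b n)) atTop (𝓝 0)) : Close F hF Ks a b :=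
  fun w hw => by
  obtain ⟨W, hW⟩ := hw.1
  refine squeeze_zero (fun n => St.nrm_nonneg (hF n) _) (fun n => ?_)
    (by simpa using (h.const_mul W).add (hw.2 a ha))
  have e : (a n - b n) * w n = w n * (a n - b n) + (a n * w n - w n * a n) := by
    rw [sub_mul, mul_sub, (hb n (w n)).eq]; abel
  rw [e]
  exact (St.nrm_add_le (hF n) _ _).trans (add_le_add
    ((St.nrm_mul_le (hF n) _ _).trans (mul_le_mul_of_nonneg_right (hW n) (St.nrm_nonneg (hF n) _)))
    (St.nrm_le_norm (hF n) _))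

lemma Agree.tendsto {a b : ℕ → D} (h : Agree F hF Ks a b) :
    Tendsto (fun n => St.nrm (hF n) (a n - b n)) atTop (𝓝 0) := by
  simpa using h.2.2.1 1 AC.one

end Vale.Agent.P095.General.Spread
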