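import Vale.Agent.P095.General.Spread.Est

/-!
A lower bound for the spread of an average of bounded versions of elements of variance one.
-/

noncomputable section

open scoped ComplexOrder

namespace Vale.Agent.P095.General.Spread

universe u v

variable {D : Type u} [CStarAlgebra D]

/-- The variance of the average is bounded below. -/
theorem spread_lower {F : D → ℂ} (hF : F ∈ St D) {κ : Type v} (s : Finset κ) (hs : s.Nonempty)
    (X Z : κ → D) (hX : ∀ h ∈ s, IsSelfAdjoint (X h)) (hZ : ∀ h ∈ s, IsSelfAdjoint (Z h))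
    {e : ℝ} (he : e ≤ 1 / 1000)
    (hclose : ∀ h ∈ s, St.nrm hF (X h - Z h) ≤ e ∧ St.nrm hF (X h * X h - Z h * Z h) ≤ e)
    (hmean : ∀ h ∈ s, ‖F (Z h)‖ ≤ 1 / 100) (hvar : ∀ h ∈ s, 99 / 100 ≤ (F (Z h * Z h)).re)
    (hfour : ∀ h ∈ s, (F (Z h * Z h * (Z h * Z h))).re ≤ 4)
    (hdiff : ∀ h ∈ s, ∀ h' ∈ s, (F ((Z h - Z h') * (Z h - Z h'))).re ≤ 1 / 20) (t : ℝ) :
    1 / 4000 < (F (((s.card : ℝ)⁻¹ • ∑ h ∈ s, (1 / 20 : ℝ) • bsin (1 / 20) (X h) -
        algebraMap ℝ D t) * ((s.card : ℝ)⁻¹ • ∑ h ∈ s, (1 / 20 : ℝ) • bsin (1 / 20) (X h) -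
        algebraMap ℝ D t))).re := by
  let _ : PartialOrder D := CStarAlgebra.spectralOrder D
  have _ : StarOrderedRing D := CStarAlgebra.spectralOrderedRing D
  have hN : (0 : ℝ) < s.card := Nat.cast_pos.2 hs.card_pos
  have hnrm : ∀ y : D, IsSelfAdjoint y → St.nrm hF y ^ 2 = (F (y * y)).re := fun y hy => by
    rw [St.sq_nrm hF, hy.star_eq]
  set T := (s.card : ℝ)⁻¹ • ∑ h ∈ s, (1 / 20 : ℝ) • bsin (1 / 20) (X h) with hT
  set Y := (s.card : ℝ)⁻¹ • ∑ h ∈ s, X h with hY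
  have avg : ∀ (f : κ → D) (c : ℝ), (∀ h ∈ s, St.nrm hF (f h) ≤ c) →
      St.nrm hF ((s.card : ℝ)⁻¹ • ∑ h ∈ s, f h) ≤ c := fun f c hf => by
    rw [St.nrm_rsmul hF, abs_of_pos (inv_pos.2 hN), inv_mul_le_iff₀ hN]
    exact (St.nrm_sum_le hF _ _).trans ((Finset.sum_le_sum hf).trans_eq
      (by rw [Finset.sum_const, nsmul_eq_mul]))
  have hTs : IsSelfAdjoint T :=
    (IsSelfAdjoint.all _).smul (isSelfAdjoint_sum _ fun h _ => (IsSelfAdjoint.all _).smul
      (bsin_sa _ _))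
  have hYs : IsSelfAdjoint Y :=
    (IsSelfAdjoint.all _).smul (isSelfAdjoint_sum _ fun h hh => hX h hh)
  have hts : IsSelfAdjoint (algebraMap ℝ D t) := (IsSelfAdjoint.all t).algebraMap D
  have hXX : ∀ h ∈ s, St.nrm hF (X h * X h) ≤ 2 + e := fun h hh => by
    have e1 : St.nrm hF (Z h * Z h) ≤ 2 := by
      refine Real.sqrt_le_iff.2 ⟨by norm_num, ?_⟩
      rw [star_mul, (hZ h hh).star_eq]
      linarith [hfour h hh]
    calc St.nrm hF (X h * X h) = St.nrm hF (Z h * Z h + (X h * X h - Z h * Z h)) := by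
          rw [add_sub_cancel]
      _ ≤ _ := (St.nrm_add_le hF _ _).trans (add_le_add e1 (hclose h hh).2)
  have hTY : St.nrm hF (T - (1 / 20 : ℝ) • Y) ≤ 1 / 400 * (2 + e) := by
    rw [hT, hY, smul_comm (1 / 20 : ℝ) (s.card : ℝ)⁻¹, ← smul_sub, Finset.smul_sum,
      ← Finset.sum_sub_distrib]
    refine avg _ _ fun h hh => ?_
    rw [← smul_sub, St.nrm_rsmul hF]
    obtain ⟨-, h2⟩ := bsin_bounds (η := (1 / 20 : ℝ)) (by norm_num) (hX h hh)
    have h3 : St.nrm hF (bsin (1 / 20) (X h) - X h) ≤ St.nrm hF ((1 / 20 : ℝ) • (X h * X h)) :=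
      Real.sqrt_le_sqrt (Complex.le_def.1 (St.mono hF h2)).1
    rw [St.nrm_rsmul hF, abs_of_pos (by norm_num : (0 : ℝ) < 1 / 20)] at h3
    rw [abs_of_pos (by norm_num : (0 : ℝ) < 1 / 20)]
    linarith [hXX h hh]
  obtain ⟨h₀, hh₀⟩ := hs
  have hYZ : St.nrm hF (Y - Z h₀) ≤ e + 9 / 40 := by
    have e1 : Y - Z h₀ = (s.card : ℝ)⁻¹ • ∑ h ∈ s, (X h - Z h₀) := by
      rw [Finset.sum_sub_distrib, Finset.sum_const, smul_sub, ← hY, ← Nat.cast_smul_eq_nsmul ℝ,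
        smul_smul, inv_mul_cancel₀ hN.ne', one_smul]
    rw [e1]
    refine avg _ _ fun h hh => ?_
    rw [← sub_add_sub_cancel (X h) (Z h) (Z h₀)]
    refine (St.nrm_add_le hF _ _).trans (add_le_add (hclose h hh).1 ?_)
    have := hdiff h hh h₀ hh₀
    rw [← hnrm _ ((hZ h hh).sub (hZ h₀ hh₀))] at this
    nlinarith [St.nrm_nonneg hF (Z h - Z h₀)]
  have hY1 : 76 / 100 ≤ St.nrm hF Y := by
    have h1 : St.nrm hF (Z h₀) ≤ St.nrm hF Y + St.nrm hF (Y - Z h₀) := by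
      conv_lhs => rw [← sub_sub_cancel Y (Z h₀)]
      exact St.nrm_sub_le hF _ _
    have h2 := hvar h₀ hh₀
    rw [← hnrm _ (hZ h₀ hh₀)] at h2
    nlinarith [St.nrm_nonneg hF (Z h₀)]
  have hY0 : |(F Y).re| ≤ 11 / 1000 := by
    rw [hY, St.rsmul hF, Complex.re_ofReal_mul, abs_mul, abs_of_pos (inv_pos.2 hN),
      inv_mul_le_iff₀ hN, St.sum hF, Complex.re_sum]
    refine (Finset.abs_sum_le_sum_abs _ _).trans ((Finset.sum_le_sum
      (g := fun _ => (11 / 1000 : ℝ)) fun h hh => ?_).trans_eq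
      (by rw [Finset.sum_const, nsmul_eq_mul]))
    have e1 : F (X h) = F (Z h) + F (X h - Z h) := by rw [St.sub hF]; ring
    have h1 : ‖F (X h - Z h)‖ ≤ e := by
      have := St.cs hF 1 (X h - Z h)
      rw [star_one, one_mul, St.nrm_one hF, one_mul] at this
      exact this.trans (hclose h hh).1
    rw [e1]
    exact (Complex.abs_re_le_norm _).trans ((norm_add_le _ _).trans (by linarith [hmean h hh]))
  have hlam : 37 / 1000 ≤ St.nrm hF ((1 / 20 : ℝ) • Y - algebraMap ℝ D t) := by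
    have hs' : IsSelfAdjoint ((1 / 20 : ℝ) • Y - algebraMap ℝ D t) :=
      ((IsSelfAdjoint.all _).smul hYs).sub hts
    have e2 : St.nrm hF ((1 / 20 : ℝ) • Y - algebraMap ℝ D t) ^ 2 =
        1 / 400 * St.nrm hF Y ^ 2 - 1 / 10 * t * (F Y).re + t ^ 2 := by
      rw [hnrm _ hs', hnrm _ hYs, Algebra.algebraMap_eq_smul_one]
      simp only [sub_mul, mul_sub, smul_mul_assoc, mul_smul_comm, one_mul, mul_one, St.sub hF,
        St.rsmul hF, St.one hF, Complex.sub_re, Complex.re_ofReal_mul,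
        Complex.ofReal_re]
      ring
    have h4 : (F Y).re ^ 2 ≤ (11 / 1000) ^ 2 := by
      rw [← sq_abs]; exact pow_le_pow_left₀ (abs_nonneg _) hY0 2
    nlinarith [sq_nonneg (t - 1 / 20 * (F Y).re),
      St.nrm_nonneg hF ((1 / 20 : ℝ) • Y - algebraMap ℝ D t)]
  rw [← hnrm _ (hTs.sub hts)]
  have h5 : St.nrm hF ((1 / 20 : ℝ) • Y - algebraMap ℝ D t) ≤
      St.nrm hF (T - algebraMap ℝ D t) + St.nrm hF (T - (1 / 20 : ℝ) • Y) := by
    conv_lhs => rw [← sub_sub_sub_cancel_left _ _ T]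
    exact St.nrm_sub_le hF _ _
  have h6 : 16 / 1000 < St.nrm hF (T - algebraMap ℝ D t) := by linarith
  nlinarith

end Vale.Agent.P095.General.Spread
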