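import Vale.Agent.P095.General.Spread.Est

/-!
Gaussian data from blocks under a product state.
-/

noncomputable section

open scoped ComplexOrder ComplexConjugate
open Finset

namespace Vale.Agent.P095.General.Spread

universe u v

namespace Blocks

variable {G : Type v} [Group G] {D : Type u} [CStarAlgebra D] {sys : Sys G D} {ι : Finset G}
  {I : Type} {R : ℕ} {ρ : ℝ} (bl : Blocks sys ι I R ρ)

lemma smul_one_mem (A : Set (I × Fin R)) (c : ℂ) : c • (1 : D) ∈ bl.out A :=
  SMulMemClass.smul_mem c (one_mem _)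

omit bl in
lemma norm_smul_one_le (c : ℂ) : ‖c • (1 : D)‖ ≤ ‖c‖ := by
  rcases subsingleton_or_nontrivial D with _ | _
  · simp [Subsingleton.elim (c • (1 : D)) 0]
  · rw [norm_smul, norm_one, mul_one]

variable {F : D → ℂ} (hF : F ∈ St D)
  (hmul : ∀ {A A' : Set (I × Fin R)}, Disjoint A A' → ∀ a ∈ bl.out A, ∀ b ∈ bl.out A',
    F (a * b) = F a * F b)
  (hb : ∀ p, ∀ g ∈ ι, ‖F (bl.x p g)‖ ≤ 2 * ρ ^ R ∧ ‖F (bl.x p g * bl.x p g) - 1‖ ≤ ρ ^ R)
  (hρ : 0 ≤ ρ)

include hF hmul hb hρ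

/-- The data. -/
theorem exists_gauss [DecidableEq G] {θ : ℝ} (hθ : 0 < θ) (hθ1 : θ ≤ 1 / 100) (hR : 0 < R)
    (hsm : ((R : ℝ) + 1) ^ 4 * ρ ^ R ≤ θ) (hrt : rt R ≤ θ) :
    ∃ d : Gauss D ↥ι I (100 * θ) (2 / θ), (∀ x, d.Φ x = F x) ∧
      (∀ a (g : ↥ι), ∃ μ : ℂ, ‖μ‖ ≤ 2 * R * ρ ^ R + 2 * rt R ∧
        d.f a g = bl.fh θ a g - μ • 1) ∧
      ∀ a (g h : ↥ι), ∃ k : ℂ, ‖k‖ ≤ 2 ∧ d.K a g h = k • 1 ∧
        St.nrm hF (bl.Kh θ a g h - d.K a g h) ≤ 8 * rt R := by
  have hsmall : ((R : ℝ) + 1) ^ 4 * ρ ^ R ≤ 1 / 100 := hsm.trans hθ1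
  have hρR : 0 ≤ ρ ^ R := pow_nonneg hρ R
  have hR1 : (1 : ℝ) ≤ (R : ℝ) + 1 := by simp
  have hρθ : ρ ^ R ≤ θ := (le_mul_of_one_le_left hρR (one_le_pow₀ hR1)).trans hsm
  have hRρ : (R : ℝ) * ρ ^ R ≤ θ :=
    (mul_le_mul_of_nonneg_right ((le_add_of_nonneg_right zero_le_one).trans
      (le_self_pow₀ hR1 (by norm_num : (4 : ℕ) ≠ 0))) hρR).trans hsm
  set μ : I → ↥ι → ℂ := fun a g => ((F (bl.fh θ a g)).re : ℂ) with hμ
  have hfhsa : ∀ a (g : ↥ι), IsSelfAdjoint (bl.fh θ a g) := fun a g => bsin_sa θ (bl.S a g)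
  have hμF : ∀ a (g : ↥ι), F (bl.fh θ a g) = μ a g := fun a g => by
    have := St.map_star hF (bl.fh θ a g)
    rw [(hfhsa a g).star_eq] at this
    exact Complex.ext rfl (Complex.conj_eq_iff_im.1 this.symm)
  have hμb : ∀ a (g : ↥ι), ‖μ a g‖ ≤ 2 * R * ρ ^ R + 2 * rt R := fun a g => by
    rw [← hμF]; exact bl.norm_fh_mean hF hmul hb hρ hsmall hθ (hθ1.trans (by norm_num)) a g.2
  have hμθ : ∀ a g, ‖μ a g‖ ≤ 4 * θ := fun a g => (hμb a g).trans (by linarith)
  set kk : I → ↥ι → ↥ι → D := fun a g h =>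
    kern (fun r => bl.x (a, r) g) fun r => bl.x (a, r) h with hkk
  set κ : I → ↥ι → ↥ι → ℂ := fun a g h => if g = h then 1 else ((1 - θ : ℝ) : ℂ) * F (kk a g h)
    with hκ
  set f : I → ↥ι → D := fun a g => bl.fh θ a g - μ a g • 1 with hf
  have hfsa : ∀ a g, IsSelfAdjoint (f a g) := fun a g => by
    refine (hfhsa a g).sub ?_
    rw [IsSelfAdjoint, star_smul, star_one]
    simp [hμ, Complex.conj_ofReal]
  have hnx : ∀ a r (g : ↥ι), St.nrm hF (bl.x (a, r) g) ≤ 3 / 2 := fun a r g => by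
    refine Real.sqrt_le_iff.2 ⟨by norm_num, ?_⟩
    rw [(bl.sa _ _).star_eq]
    have h1 := (hb (a, r) g g.2).2
    have h2 := norm_add_le (F (bl.x (a, r) g * bl.x (a, r) g) - 1) 1
    rw [sub_add_cancel, norm_one] at h2
    linarith [(Complex.re_le_norm (F (bl.x (a, r) g * bl.x (a, r) g)))]
  have hxx : ∀ a r (g h : ↥ι), ‖F (bl.x (a, r) g * bl.x (a, r) h)‖ ≤ 9 / 4 := fun a r g h => by
    have := St.cs hF (bl.x (a, r) g) (bl.x (a, r) h)
    rw [(bl.sa _ _).star_eq] at this
    exact this.trans ((mul_le_mul (hnx a r g) (hnx a r h) (St.nrm_nonneg hF _) (by norm_num)).trans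
      (by norm_num))
  have hdiag : ∀ a r (g : ↥ι), ‖F (bl.x (a, r) g * bl.x (a, r) g)‖ ≤ 1 + ρ ^ R := fun a r g => by
    have h2 := norm_add_le (F (bl.x (a, r) g * bl.x (a, r) g) - 1) 1
    rw [sub_add_cancel, norm_one] at h2
    linarith [(hb (a, r) g g.2).2]
  have hkF : ∀ a (g h : ↥ι), F (kk a g h) =
      ((R : ℝ)⁻¹ : ℝ) * ∑ r, F (bl.x (a, r) g * bl.x (a, r) h) := fun a g h => by
    simp only [hkk, kern]
    rw [St.rsmul hF, St.sum hF]
  have hkn : ∀ a (g h : ↥ι), ‖F (kk a g h)‖ ≤ 9 / 4 := fun a g h => by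
    rw [hkF, norm_mul, Complex.norm_real, Real.norm_eq_abs,
      abs_of_nonneg (inv_nonneg.2 (Nat.cast_nonneg R))]
    refine (mul_le_mul_of_nonneg_left ((norm_sum_le _ _).trans
      (sum_le_sum fun r _ => hxx a r g h)) (inv_nonneg.2 (Nat.cast_nonneg R))).trans ?_
    rw [sum_const, card_univ, Fintype.card_fin, nsmul_eq_mul, ← mul_assoc,
      inv_mul_cancel₀ (Nat.cast_ne_zero.2 hR.ne'), one_mul]
  have hkdiag : ∀ a (g : ↥ι), ‖F (kk a g g) - 1‖ ≤ ρ ^ R := fun a g => by
    have hR' : (0 : ℝ) < R := Nat.cast_pos.2 hR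
    have e : F (kk a g g) - 1 =
        ((R : ℝ)⁻¹ : ℝ) * ∑ r, (F (bl.x (a, r) g * bl.x (a, r) g) - 1) := by
      rw [hkF, sum_sub_distrib, sum_const, card_univ, Fintype.card_fin, nsmul_eq_mul, mul_one,
        mul_sub]
      congr 1
      push_cast
      rw [inv_mul_cancel₀ (Nat.cast_ne_zero.2 hR.ne')]
    rw [e, norm_mul, Complex.norm_real, Real.norm_eq_abs, abs_of_pos (inv_pos.2 hR'),
      inv_mul_le_iff₀ hR']
    refine (norm_sum_le _ _).trans ((sum_le_sum fun r _ => (hb (a, r) g g.2).2).trans_eq ?_)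
    rw [sum_const, card_univ, Fintype.card_fin, nsmul_eq_mul]
  have hκn : ∀ a g h, ‖κ a g h‖ ≤ 9 / 4 := fun a g h => by
    simp only [hκ]
    by_cases e : g = h
    · rw [if_pos e, norm_one]; norm_num
    · rw [if_neg e, norm_mul, Complex.norm_real, Real.norm_eq_abs, abs_of_nonneg (by linarith)]
      exact (mul_le_of_le_one_left (norm_nonneg _) (by linarith)).trans (hkn a g h)
  have hκ2 : ∀ a g h, ‖κ a g h‖ ≤ 2 := fun a g h => by
    simp only [hκ]
    by_cases e : g = h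
    · rw [if_pos e, norm_one]; norm_num
    · rw [if_neg e, norm_mul, Complex.norm_real, Real.norm_eq_abs, abs_of_nonneg (by linarith)]
      have hcs : ‖F (kk a g h)‖ ≤ 1 + ρ ^ R := by
        rw [hkF, norm_mul, Complex.norm_real, Real.norm_eq_abs,
          abs_of_nonneg (inv_nonneg.2 (Nat.cast_nonneg R))]
        refine (mul_le_mul_of_nonneg_left ((norm_sum_le _ _).trans
          (sum_le_sum (g := fun _ => 1 + ρ ^ R) fun r _ => ?_))
          (inv_nonneg.2 (Nat.cast_nonneg R))).trans ?_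
        · have := St.cs hF (bl.x (a, r) g) (bl.x (a, r) h)
          rw [(bl.sa _ _).star_eq] at this
          refine this.trans ?_
          have hsq : ∀ g : ↥ι, St.nrm hF (bl.x (a, r) g) ^ 2 ≤ 1 + ρ ^ R := fun g => by
            rw [St.sq_nrm hF, (bl.sa _ _).star_eq]
            exact (Complex.re_le_norm _).trans (hdiag a r g)
          nlinarith [hsq g, hsq h, sq_nonneg (St.nrm hF (bl.x (a, r) g) -
            St.nrm hF (bl.x (a, r) h))]
        · rw [sum_const, card_univ, Fintype.card_fin, nsmul_eq_mul, ← mul_assoc,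
            inv_mul_cancel₀ (Nat.cast_ne_zero.2 hR.ne'), one_mul]
      have := mul_le_of_le_one_left (norm_nonneg (F (kk a g h))) (by linarith : 1 - θ ≤ 1)
      linarith
  have hFf : ∀ a g, F (f a g) = 0 := fun a g => by
    simp only [hf, St.sub hF, St.smul hF, St.one hF, hμF, mul_one, sub_self]
  have hff : ∀ a (g h : ↥ι),
      F (f a g * f a h) = F (bl.fh θ a g * bl.fh θ a h) - μ a g * μ a h := fun a g h => by
    simp only [hf, sub_mul, mul_sub, smul_mul_assoc, mul_smul_comm, one_mul, mul_one, St.sub hF,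
      St.smul hF, hμF, St.one hF]
    ring
  have hnear : ∀ a g h, ‖F (f a g * f a h) - κ a g h‖ ≤ 100 * θ := fun a g h => by
    obtain ⟨f1, f2⟩ := bl.nrm_fh hF hmul hb hρ hsmall hθ hR a (g := (g : G)) g.2
    obtain ⟨h1, h2⟩ := bl.nrm_fh hF hmul hb hρ hsmall hθ hR a (g := (h : G)) h.2
    obtain ⟨s1, -⟩ := bl.nrm_S hF hmul hb hρ hsmall hR a (g := (g : G)) g.2
    have e1 : ‖F ((bl.fh θ a g - bl.S a g) * bl.fh θ a h)‖ ≤ 7 * θ * 2 := by
      have := St.cs hF (bl.fh θ a g - bl.S a g) (bl.fh θ a h)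
      rw [((hfhsa a g).sub (bl.S_sa a g)).star_eq] at this
      exact this.trans (mul_le_mul f2 h1 (St.nrm_nonneg hF _) (by positivity))
    have e2 : ‖F (bl.S a g * (bl.fh θ a h - bl.S a h))‖ ≤ 2 * (7 * θ) := by
      have := St.cs hF (bl.S a g) (bl.fh θ a h - bl.S a h)
      rw [(bl.S_sa a g).star_eq] at this
      exact this.trans (mul_le_mul s1 h2 (St.nrm_nonneg hF _) (by norm_num))
    have e3 := bl.norm_SS_sub_kern hF hmul hb hρ hsmall hR a g.2 h.2
    have e4 : ‖F (kk a g h) - κ a g h‖ ≤ 3 * θ := by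
      simp only [hκ]
      by_cases e : g = h
      · subst e; rw [if_pos rfl]; linarith [hkdiag a g]
      · rw [if_neg e, show F (kk a g h) - ((1 - θ : ℝ) : ℂ) * F (kk a g h) =
          (θ : ℂ) * F (kk a g h) by push_cast; ring, norm_mul, Complex.norm_real, Real.norm_eq_abs,
          abs_of_pos hθ]
        nlinarith [hkn a g h]
    have e5 : ‖μ a g * μ a h‖ ≤ 16 * θ := by
      rw [norm_mul]
      nlinarith [mul_le_mul (hμθ a g) (hμθ a h) (norm_nonneg _) (by linarith)]
    have e : F (f a g * f a h) - κ a g h = F ((bl.fh θ a g - bl.S a g) * bl.fh θ a h) +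
        F (bl.S a g * (bl.fh θ a h - bl.S a h)) +
        (F (bl.S a g * bl.S a h) - F (kk a g h)) + (F (kk a g h) - κ a g h) - μ a g * μ a h := by
      rw [hff, sub_mul, mul_sub, St.sub hF, St.sub hF]; ring
    rw [e]
    refine (norm_sub_le _ _).trans ?_
    refine le_trans (add_le_add_left ((norm_add_le _ _).trans
      (add_le_add_left norm_add₃_le _)) _) ?_
    have e3' : ‖F (bl.S a g * bl.S a h) - F (kk a g h)‖ ≤ 4 * R * ρ ^ R := e3
    linarith
  have hpsd : ∀ a (t : ↥ι → ℂ), ∃ r : ℝ, 0 ≤ r ∧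
      ∑ g, ∑ h, conj (t g) * t h * κ a g h = (r : ℂ) := by
    intro a t
    have hre : ∀ g, F (kk a g g) = ((F (kk a g g)).re : ℂ) := fun g => by
      have := St.map_star hF (kk a g g)
      rw [hkk, bl.star_kern] at this
      exact Complex.ext rfl (Complex.conj_eq_iff_im.1 this.symm)
    have hsum : ∑ g, ∑ h, conj (t g) * t h * F (kk a g h) =
        ((R : ℝ)⁻¹ : ℝ) * ∑ r, F (star (∑ g, t g • bl.x (a, r) g) *
          (∑ g, t g • bl.x (a, r) g)) := by
      have e : ∀ r, F (star (∑ g, t g • bl.x (a, r) g) * (∑ g, t g • bl.x (a, r) g)) =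
          ∑ g : ↥ι, ∑ h : ↥ι, conj (t g) * t h * F (bl.x (a, r) g * bl.x (a, r) h) := fun r => by
        rw [star_sum, sum_mul, St.sum hF]
        refine sum_congr rfl fun g _ => ?_
        rw [mul_sum, St.sum hF]
        refine sum_congr rfl fun h _ => ?_
        rw [star_smul, (bl.sa _ _).star_eq, smul_mul_smul_comm, St.smul hF]
        rfl
      simp only [e]
      simp only [hkF, mul_sum]
      conv_rhs => rw [sum_comm]
      refine sum_congr rfl fun g _ => ?_
      conv_rhs => rw [sum_comm]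
      refine sum_congr rfl fun h _ => sum_congr rfl fun r _ => ?_
      ring
    refine ⟨(1 - θ) * ((R : ℝ)⁻¹ * ∑ r, St.nrm hF (∑ g, t g • bl.x (a, r) g) ^ 2) +
      ∑ g, ‖t g‖ ^ 2 * (1 - (1 - θ) * (F (kk a g g)).re), ?_, ?_⟩
    · refine add_nonneg (mul_nonneg (by linarith) (mul_nonneg (inv_nonneg.2 (Nat.cast_nonneg R))
        (sum_nonneg fun r _ => sq_nonneg _))) (sum_nonneg fun g _ => mul_nonneg (sq_nonneg _) ?_)
      have h1 := (Complex.re_le_norm (F (kk a g g) - 1)).trans (hkdiag a g)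
      rw [Complex.sub_re, Complex.one_re] at h1
      nlinarith [mul_nonneg hθ.le hρR]
    · have hterm : ∀ g h, conj (t g) * t h * κ a g h =
          ((1 - θ : ℝ) : ℂ) * (conj (t g) * t h * F (kk a g h)) +
            (if h = g then ((‖t g‖ ^ 2 * (1 - (1 - θ) * (F (kk a g g)).re) : ℝ) : ℂ) else 0) := by
        intro g h
        simp only [hκ]
        by_cases e : g = h
        · subst e
          rw [if_pos rfl, if_pos rfl, hre g, ← Complex.normSq_eq_conj_mul_self,
            Complex.normSq_eq_norm_sq, Complex.ofReal_re]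
          push_cast; ring
        · rw [if_neg e, if_neg (Ne.symm e)]; ring
      simp only [hterm, sum_add_distrib, ← mul_sum, sum_ite_eq', mem_univ, if_true, hsum,
        St.self_eq hF]
      push_cast
      ring
  refine ⟨{
    Φ := St.lin hF
    one := St.one hF
    pos := fun x => ⟨_, sq_nonneg (St.nrm hF x), St.self_eq hF x⟩
    f := f
    K := fun a g h => κ a g h • 1
    K' := fun a g h => F (f a g * f a h) • 1
    f_sa := hfsa
    f_norm := ?_
    K_star := ?_
    K_norm := fun a g h => (norm_smul_one_le _).trans (hκ2 a g h)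
    K_diag := fun a g => by simp only [hκ, if_true, one_smul]
    K_psd := ?_
    K_near := fun a g h => by
      rw [← sub_smul]; exact (norm_smul_one_le _).trans (hnear a g h)
    comm_ff := ?_
    comm_Kf := fun _ _ _ _ _ =>
      ⟨(Commute.one_left _).smul_left _, (Commute.one_left _).smul_left _⟩
    comm_KK := fun _ _ _ _ _ _ =>
      ⟨(Commute.one_left _).smul_left _, (Commute.one_left _).smul_left _,
        (Commute.one_left _).smul_left _⟩
    base := ⊥
    base_comm := ?_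
    out := fun a => bl.out {p | p.1 ≠ a}
    out_closed := fun a => bl.out_closed _
    out_base := fun a => bot_le
    out_f := ?_
    out_K := fun a b g h => ⟨bl.smul_one_mem _ _, bl.smul_one_mem _ _⟩
    out_comm := ?_
    mean := ?_
    pair := ?_ }, fun x => rfl, fun a g => ⟨μ a g, hμb a g, rfl⟩,
      fun a g h => ⟨κ a g h, hκ2 a g h, rfl, ?_⟩⟩
  · intro a g
    refine (norm_sub_le _ _).trans ?_
    have h1 : ‖bl.fh θ a g‖ ≤ θ⁻¹ := norm_bsin hθ _
    have h2 : ‖μ a g‖ ≤ θ⁻¹ := by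
      rw [← hμF]; exact (St.norm_le hF _).trans h1
    have h3 : (2 : ℝ) / θ = θ⁻¹ + θ⁻¹ := by ring
    rw [h3]
    exact add_le_add h1 ((norm_smul_one_le _).trans h2)
  · intro a g h
    rw [star_smul, star_one]
    congr 1
    simp only [hκ]
    by_cases e : g = h
    · rw [if_pos e, if_pos e.symm, star_one]
    · rw [if_neg e, if_neg (Ne.symm e), star_mul', ← St.map_star hF, hkk, bl.star_kern]
      simp [Complex.conj_ofReal]
  · intro a t
    obtain ⟨r, hr, e⟩ := hpsd a t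
    refine ⟨Real.sqrt r • 1, ?_⟩
    rw [star_smul, star_trivial, star_one, smul_mul_smul_comm, one_mul, Real.mul_self_sqrt hr,
      ← Complex.coe_smul, ← e]
    simp only [smul_smul, sum_smul]
  · intro a b hab g h
    exact bl.out_comm (disjoint_grp hab) _ (sub_mem (bl.fh_mem θ a g) (bl.smul_one_mem _ _)) _
      (sub_mem (bl.fh_mem θ b h) (bl.smul_one_mem _ _))
  · intro x hx a g h
    refine ⟨?_, (Commute.one_right x).smul_right _, (Commute.one_right x).smul_right _⟩
    obtain ⟨c, rfl⟩ := StarSubalgebra.mem_bot.1 hx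
    exact Algebra.commutes c _
  · intro a b hab g
    refine sub_mem (bl.out_mono ?_ (bl.fh_mem θ b g)) (bl.smul_one_mem _ _)
    intro p hp
    exact fun h => hab ((h.symm.trans hp))
  · intro a x hx g
    exact bl.out_comm (Set.disjoint_left.2 fun p (h1 : p.1 ≠ a) h2 => h1 h2) _ hx _
      (sub_mem (bl.fh_mem θ a g) (bl.smul_one_mem _ _))
  · intro a g y hy
    show F (y * f a g) = 0
    rw [hmul (Set.disjoint_left.2 fun p (h1 : p.1 ≠ a) h2 => h1 h2) y hy _
      (sub_mem (bl.fh_mem θ a g) (bl.smul_one_mem (grp a) _)), hFf, mul_zero]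
  · intro a g h y hy
    show F (y * (f a g * f a h)) = F (y * F (f a g * f a h) • 1)
    rw [hmul (Set.disjoint_left.2 fun p (h1 : p.1 ≠ a) h2 => h1 h2) y hy _
      (mul_mem (sub_mem (bl.fh_mem θ a g) (bl.smul_one_mem (grp a) _))
        (sub_mem (bl.fh_mem θ a h) (bl.smul_one_mem (grp a) _))), mul_smul_comm, mul_one,
      St.smul hF, mul_comm]
  · simp only [hκ, Blocks.Kh]
    by_cases e : g = h
    · rw [if_pos e, if_pos (congrArg Subtype.val e), one_smul, sub_self]
      simp [St.nrm, St.zero hF, rt_nonneg R]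
    · rw [if_neg e, if_neg (fun he => e (Subtype.ext he)), ← Complex.coe_smul, mul_smul, ← smul_sub,
        St.nrm_smul hF, Complex.norm_real, Real.norm_eq_abs, abs_of_nonneg (by linarith)]
      exact (mul_le_of_le_one_left (St.nrm_nonneg hF _) (by linarith)).trans
        (bl.nrm_kern_sub hF hmul a g h)

end Blocks

end Vale.Agent.P095.General.Spread
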