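import Mathlib

/-!
The exponential of i times a self-adjoint element, and elementary bounds for the sine.
-/

noncomputable section

open Complex (I)

namespace Vale.Agent.P095.General.Spread

universe u

lemma abs_sin_sub_le (x : ℝ) : |Real.sin x - x| ≤ x ^ 2 := by
  rw [abs_sub_comm]
  by_cases h : |x| ≤ 6
  · refine (Real.abs_sub_sin_le x).trans ?_
    rw [← sq_abs x]
    nlinarith [abs_nonneg x, sq_nonneg |x|]
  · refine (abs_sub _ _).trans ?_
    have := Real.abs_sin_le_one x
    rw [← sq_abs x]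
    nlinarith [abs_nonneg x]

variable {D : Type u} [CStarAlgebra D]

/-- The exponential of i times an element. -/
def expi (x : D) : D := NormedSpace.exp (I • x)

lemma expi_add {x y : D} (h : Commute x y) : expi (x + y) = expi x * expi y := by
  let +nondep : NormedAlgebra ℚ D := NormedAlgebra.restrictScalars ℚ ℂ D
  rw [expi, expi, expi, smul_add, NormedSpace.exp_add_of_commute ((h.smul_left I).smul_right I)]

lemma expi_zero : expi (0 : D) = 1 := by
  rw [expi, smul_zero, NormedSpace.exp_zero]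

variable {x : D} (hx : IsSelfAdjoint x)

include hx

lemma expi_eq_cfc : expi x = cfc (fun z : ℂ => Complex.exp (I * z)) x := by
  have : IsStarNormal x := hx.isStarNormal
  have h := cfc_comp_smul I (fun z : ℂ => Complex.exp z) x
  simp only [smul_eq_mul] at h
  rw [h, expi, ← CFC.exp_eq_normedSpace_exp (𝕜 := ℂ) (a := I • x)]
  rw [Complex.exp_eq_exp_ℂ]

omit hx in
lemma re_spectrum (hx : IsSelfAdjoint x) {z : ℂ} (hz : z ∈ spectrum ℂ x) : z = (z.re : ℂ) :=
  hx.mem_spectrum_eq_re hz

lemma expi_eq : expi x = cfc Real.cos x + I • cfc Real.sin x := by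
  have : IsStarNormal x := hx.isStarNormal
  rw [expi_eq_cfc hx, cfc_real_eq_complex Real.cos hx, cfc_real_eq_complex Real.sin hx,
    ← cfc_const_mul I (fun z : ℂ => ((Real.sin z.re : ℝ) : ℂ)) x,
    ← cfc_add x (fun z : ℂ => ((Real.cos z.re : ℝ) : ℂ))
      (fun z => I * ((Real.sin z.re : ℝ) : ℂ))]
  refine cfc_congr fun z hz => ?_
  conv_lhs => rw [re_spectrum hx hz]
  rw [mul_comm I (z.re : ℂ), Complex.exp_mul_I, ← Complex.ofReal_cos, ← Complex.ofReal_sin,
    mul_comm I]

lemma star_expi : star (expi x) = cfc Real.cos x - I • cfc Real.sin x := by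
  rw [expi_eq hx, star_add, star_smul, (cfc_predicate Real.cos x : IsSelfAdjoint _).star_eq,
    (cfc_predicate Real.sin x : IsSelfAdjoint _).star_eq]
  simp [sub_eq_add_neg]

lemma two_smul_sin : (2 * I) • cfc Real.sin x = expi x - star (expi x) := by
  rw [star_expi hx, expi_eq hx, mul_smul, two_smul]
  abel

lemma norm_expi_le : ‖expi x‖ ≤ 1 := by
  rw [expi_eq_cfc hx]
  refine norm_cfc_le zero_le_one fun z hz => ?_
  rw [re_spectrum hx hz, mul_comm, Complex.norm_exp_ofReal_mul_I]

lemma norm_expi_sub_one_le : ‖expi x - 1‖ ≤ ‖x‖ := by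
  have : IsStarNormal x := hx.isStarNormal
  rw [expi_eq_cfc hx, ← cfc_const_one ℂ x,
    ← cfc_sub (fun z : ℂ => Complex.exp (I * z)) (fun _ => 1) x]
  refine norm_cfc_le (norm_nonneg _) fun z hz => ?_
  rcases subsingleton_or_nontrivial D with _ | _
  · exact absurd hz (by simp [spectrum.of_subsingleton])
  rw [re_spectrum hx hz]
  refine Real.norm_exp_I_mul_ofReal_sub_one_le.trans ?_
  rw [Real.norm_eq_abs]
  exact (Complex.abs_re_le_norm z).trans (spectrum.norm_le_norm_of_mem hz)

lemma norm_sin_sub_le : ‖cfc Real.sin x - x‖ ≤ ‖x‖ ^ 3 / 6 := by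
  conv_lhs => arg 1; arg 2; rw [← cfc_id' ℝ x]
  rw [← cfc_sub Real.sin (fun s => s) x]
  refine norm_cfc_le (by positivity) fun s hs => ?_
  rcases subsingleton_or_nontrivial D with _ | _
  · exact absurd hs (by simp [spectrum.of_subsingleton])
  rw [Real.norm_eq_abs, abs_sub_comm]
  refine (Real.abs_sub_sin_le s).trans ?_
  rw [← Real.norm_eq_abs]
  gcongr
  exact spectrum.norm_le_norm_of_mem hs

end Vale.Agent.P095.General.Spread
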