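import Vale.Agent.P095.General.Spread.States

/-!
States on commuting copies which factor over the copies and kill a prescribed proper ideal, with
prescribed eigenstates in each copy.
-/

noncomputable section

open scoped ComplexOrder

namespace Vale.Agent.P095.General.Spread

open Vale.Agent.P101

universe u w

variable {B D : Type u} [CStarAlgebra B] [CStarAlgebra D] {J : Type w}
  (hom : J → B →⋆ₐ[ℂ] D)

/-- The monoid of products from the copies. -/
def M0 : Submonoid D := Submonoid.closure (⋃ j, Set.range (hom j))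

lemma hom_mem_M0 (j : J) (x : B) : hom j x ∈ M0 hom :=
  Submonoid.subset_closure (Set.mem_iUnion.2 ⟨j, x, rfl⟩)

/-- States killing the ideal of e. -/
def Kills (e : D) : Set (D → ℂ) := {F | F ∈ St D ∧ ∀ a b, F (a * e * b) = 0}

/-- Closed convex nonempty sets of states killing e, invariant under the copies. -/
structure Inv (e : D) (K : Set (D → ℂ)) : Prop where
  closed : IsClosed K
  convex : Convex ℝ K
  nonempty : K.Nonempty
  sub : K ⊆ Kills e
  inv : ∀ x ∈ M0 hom, ∀ F ∈ K, F (star x * x) ≠ 0 → comp x F ∈ K

lemma Inv.st {e : D} {K : Set (D → ℂ)} (h : Inv hom e K) {F : D → ℂ} (hF : F ∈ K) : F ∈ St D :=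
  (h.sub hF).1

lemma Inv.compact {e : D} {K : Set (D → ℂ)} (h : Inv hom e K) : IsCompact K :=
  isCompact_St.of_isClosed_subset h.closed fun _ hF => h.st hom hF

lemma inv_kills {e : D} (he : ¬ Full ({e} : Set D)) : Inv hom e (Kills e) := by
  refine ⟨?_, ?_, ?_, subset_rfl, ?_⟩
  · simp only [Kills, Set.ofPred_and, Set.ofPred_forall]
    exact isClosed_St.inter (isClosed_iInter fun a => isClosed_iInter fun b =>
      isClosed_eq (continuous_apply _) continuous_const)
  · intro F hF G hG s t hs ht hst
    exact ⟨convex_St hF.1 hG.1 hs ht hst, fun a b => by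
      simp only [Pi.add_apply, Pi.smul_apply, hF.2, hG.2, smul_zero, add_zero]⟩
  · obtain ⟨F, hF, h⟩ := exists_state he
    exact ⟨F, hF, h⟩
  · intro x _ F hF hx
    refine ⟨comp_mem_St hF.1 hx, fun a b => ?_⟩
    have e' : star x * (a * e * b) * x = star x * a * e * (b * x) := by simp only [mul_assoc]
    simp only [comp, e', hF.2, zero_div]

lemma exists_min {e : D} (he : ¬ Full ({e} : Set D)) :
    ∃ K, Inv hom e K ∧ ∀ K', K' ⊆ K → Inv hom e K' → K' = K := by
  obtain ⟨K, -, hK, hmin⟩ := zorn_superset_nonempty {K | Inv hom e K} (fun c hc hch hne => by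
    refine ⟨⋂₀ c, ⟨?_, ?_, ?_, ?_, ?_⟩, fun s hs => Set.sInter_subset_of_mem hs⟩
    · exact isClosed_sInter fun t ht => (hc ht).closed
    · exact convex_sInter fun t ht => (hc ht).convex
    · have : Nonempty c := hne.to_subtype
      exact IsCompact.nonempty_sInter_of_directed_nonempty_isCompact_isClosed
        (fun a ha b hb => by
          rcases eq_or_ne a b with rfl | hab
          · exact ⟨a, ha, subset_rfl, subset_rfl⟩
          rcases hch ha hb hab with h | h
          · exact ⟨a, ha, subset_rfl, h⟩
          · exact ⟨b, hb, h, subset_rfl⟩)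
        (fun t ht => (hc ht).nonempty) (fun t ht => (hc ht).compact hom) fun t ht => (hc ht).closed
    · obtain ⟨t, ht⟩ := hne
      exact fun F hF => (hc ht).sub (hF t ht)
    · exact fun x hx F hF h t ht => (hc ht).inv x hx F (hF t ht) h) (Kills e) (inv_kills hom he)
  exact ⟨K, hK, fun K' h1 h2 => h1.antisymm (hmin h2 h1)⟩

section Fixed

variable {K : Set (D → ℂ)}

/-- Null in all states of K. -/
def Dead (K : Set (D → ℂ)) (a : D) : Prop := ∀ F ∈ K, F (star a * a) = 0

/-- States of one copy which kill what is dead there. -/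
def W (K : Set (D → ℂ)) (k : J) : Set (B → ℂ) :=
  {ω | ω ∈ St B ∧ ∀ a, Dead K (hom k a) → ω (star a * a) = 0}

lemma marg_mem_St {F : D → ℂ} (hF : F ∈ St D) (φ : B →⋆ₐ[ℂ] D) :
    (fun a => F (φ a)) ∈ St B := by
  refine ⟨fun a b => by simp only [map_add, St.add hF], fun c a => by
    simp only [map_smul, St.smul hF], by simp only [map_one, St.one hF], fun a => ?_⟩
  simp only [map_mul, map_star]
  exact St.nonneg hF _

variable {e : D} (hI : Inv hom e K) (hmin : ∀ K', K' ⊆ K → Inv hom e K' → K' = K)

include hI

lemma Dead.left {a : D} (ha : Dead K a) (x : D) : Dead K (x * a) :=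
  fun F hF => St.left_zero (hI.st hom hF) (ha F hF) x

lemma Dead.right {a : D} (ha : Dead K a) {c : D} (hc : c ∈ M0 hom) : Dead K (a * c) := by
  intro F hF
  by_cases h : F (star c * c) = 0
  · exact St.left_zero (hI.st hom hF) h a
  · have := ha _ (hI.inv c hc F hF h)
    simp only [comp, div_eq_zero_iff, h, or_false] at this
    rwa [show star (a * c) * (a * c) = star c * (star a * a) * c by
      simp only [star_mul, mul_assoc]]

lemma not_dead_one : ¬ Dead K 1 := fun h => by
  obtain ⟨F, hF⟩ := hI.nonempty
  have := h F hF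
  rw [star_one, one_mul, St.one (hI.st hom hF)] at this
  exact one_ne_zero this

lemma marg_mem {F : D → ℂ} (hF : F ∈ K) (k : J) : (fun a => F (hom k a)) ∈ W hom K k := by
  refine ⟨marg_mem_St (hI.st hom hF) _, fun a ha => ?_⟩
  simp only [map_mul, map_star]
  exact ha F hF

omit hI in
lemma convex_W (k : J) : Convex ℝ (W hom K k) := by
  intro F hF G hG s t hs ht hst
  exact ⟨convex_St hF.1 hG.1 hs ht hst, fun a ha => by
    simp only [Pi.add_apply, Pi.smul_apply, hF.2 a ha, hG.2 a ha, smul_zero, add_zero]⟩

omit hI in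
lemma isCompact_W (k : J) : IsCompact (W hom K k) := by
  refine isCompact_St.of_isClosed_subset ?_ fun ω hω => hω.1
  simp only [W, Set.ofPred_and, Set.ofPred_forall]
  exact isClosed_St.inter (isClosed_iInter fun a => isClosed_iInter fun _ =>
    isClosed_eq (continuous_apply _) continuous_const)

/-- Elements generating everything are not dead in any copy. -/
lemma not_dead_full (k : J) {q : B} (hq : Full ({q} : Set B)) : ¬ Dead K (hom k q) := by
  intro h
  let I : TwoSidedIdeal B := TwoSidedIdeal.mk' {a | Dead K (hom k a)}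
    (fun F hF => by simp [St.zero (hI.st hom hF)])
    (fun {a b} ha hb F hF => by
      rw [map_add]; exact St.add_zero (hI.st hom hF) (ha F hF) (hb F hF))
    (fun {a} ha F hF => by simpa using ha F hF)
    (fun {a b} hb => by simpa using Dead.left hom hI hb (hom k a))
    (fun {a b} ha => by simpa using Dead.right hom hI ha (hom_mem_M0 hom k b))
  have h1 : (1 : B) ∈ I := TwoSidedIdeal.span_le.2 (fun a ha => by
    rw [Set.mem_singleton_iff] at ha
    subst ha
    exact (TwoSidedIdeal.mem_mk' _ _ _ _ _ _ _).2 h) hq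
  have h2 : Dead K (hom k 1) := (TwoSidedIdeal.mem_mk' _ _ _ _ _ _ _).1 h1
  exact not_dead_one hom hI (by simpa using h2)

/-- An eigenstate in a copy, extreme among the states killing what is dead there. -/
lemma exists_eigen (k : J) {z q : B} (hz : IsSelfAdjoint z) (hz1 : ‖z‖ ≤ 1)
    (hq : Full ({q} : Set B)) (hzq : z * q = q) :
    ∃ ω ∈ (W hom K k).extremePoints ℝ, ω z = 1 := by
  let face : Set (B → ℂ) := {ω | ω ∈ W hom K k ∧ ω z = 1}
  have hne : face.Nonempty := by
    have h0 := not_dead_full hom hI k hq
    simp only [Dead, not_forall] at h0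
    obtain ⟨F, hF, hFq⟩ := h0
    refine ⟨fun a => comp (hom k q) F (hom k a),
      marg_mem hom hI (hI.inv _ (hom_mem_M0 hom k q) F hF hFq) k, ?_⟩
    simp only [comp, mul_assoc, ← map_mul, hzq]
    exact div_self hFq
  have hc : IsCompact face := by
    simp only [face, Set.ofPred_and]
    exact (isCompact_W hom k).inter_right (isClosed_eq (continuous_apply _) continuous_const)
  obtain ⟨ω, hω⟩ := hc.extremePoints_nonempty hne
  refine ⟨ω, ?_, hω.1.2⟩
  refine mem_extremePoints_iff_left.2 ⟨hω.1.1, fun x hx y hy hxy => ?_⟩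
  obtain ⟨s, t, hs, ht, hst, he⟩ := hxy
  have hre : ∀ p ∈ W hom K k, (p z).im = 0 ∧ (p z).re ≤ 1 := fun p hp => by
    refine ⟨?_, (Complex.re_le_norm _).trans ((St.norm_le hp.1 z).trans hz1)⟩
    have := St.map_star hp.1 z
    rw [hz.star_eq] at this
    exact Complex.conj_eq_iff_im.1 this.symm
  have h1 := congr_arg Complex.re (congr_fun he z)
  simp only [Pi.add_apply, Pi.smul_apply, hω.1.2, Complex.add_re, Complex.smul_re, smul_eq_mul,
    Complex.one_re] at h1
  have hx1 : x z = 1 := Complex.ext
    (by rw [Complex.one_re]; nlinarith [(hre x hx).2, (hre y hy).2])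
    (by rw [(hre x hx).1, Complex.one_im])
  have hy1 : y z = 1 := Complex.ext
    (by rw [Complex.one_re]; nlinarith [(hre x hx).2, (hre y hy).2])
    (by rw [(hre y hy).1, Complex.one_im])
  exact (mem_extremePoints_iff_left.1 hω).2 x ⟨hx, hx1⟩ y ⟨hy, hy1⟩ ⟨s, t, hs, ht, hst, he⟩

/-- An extreme marginal factors from everything commuting with that copy. -/
lemma factor {F : D → ℂ} (hF : F ∈ K) (k : J) {ω : B → ℂ}
    (hω : ω ∈ (W hom K k).extremePoints ℝ) (hm : ∀ a, F (hom k a) = ω a) (a : B) {b : D}
    (hb : ∀ x, Commute (hom k x) b) : F (hom k a * b) = ω a * F b := by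
  have hS := hI.st hom hF
  have key : ∀ b : D, IsSelfAdjoint b → ‖b‖ ≤ 1 → (∀ x, Commute (hom k x) b) →
      F (hom k a * b) = ω a * F b := by
    intro b hs hn hb
    have hroot : ∀ ε : ℝ, |ε| ≤ 1 → ∃ c : D, IsSelfAdjoint c ∧ (∀ x, Commute (hom k x) c) ∧
        c * c = algebraMap ℝ D (1 / 2) + (ε / 4) • b := by
      intro ε hε
      refine ⟨cfc (fun s : ℝ => Real.sqrt (1 / 2 + ε / 4 * s)) b, cfc_predicate _ _,
        fun x => ((hb x).symm.cfc_real _).symm, ?_⟩
      rw [← cfc_mul (fun s : ℝ => Real.sqrt (1 / 2 + ε / 4 * s)) _ b,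
        ← cfc_const_mul_id (ε / 4) b, ← cfc_const_add (1 / 2 : ℝ) _ b]
      refine cfc_congr fun s hs' => Real.mul_self_sqrt ?_
      rcases subsingleton_or_nontrivial D with _ | _
      · exact absurd hs' (by simp [spectrum.of_subsingleton])
      have h1 : |s| ≤ 1 := by
        rw [← Real.norm_eq_abs]; exact (spectrum.norm_le_norm_of_mem hs').trans hn
      have h2 : |ε / 4 * s| ≤ 1 / 4 := by
        rw [abs_mul, abs_div, abs_of_pos (by norm_num : (0 : ℝ) < 4)]
        nlinarith [abs_nonneg s, abs_nonneg ε]
      linarith [(abs_le.1 h2).1]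
    obtain ⟨c, hc, hck, hc2⟩ := hroot 1 (by norm_num)
    obtain ⟨r, hr, hrk, hr2⟩ := hroot (-1) (by norm_num)
    have hFc : F (c * c) = 1 / 2 + 1 / 4 * F b := by
      rw [hc2, St.add hS, Algebra.algebraMap_eq_smul_one, St.rsmul hS, St.rsmul hS, St.one hS]
      push_cast; ring
    have hFr : F (r * r) = 1 / 2 - 1 / 4 * F b := by
      rw [hr2, St.add hS, Algebra.algebraMap_eq_smul_one, St.rsmul hS, St.rsmul hS, St.one hS]
      push_cast; ring
    have hbr : (F b).im = 0 ∧ |(F b).re| ≤ 1 := by
      refine ⟨?_, (Complex.abs_re_le_norm _).trans ((St.norm_le hS b).trans hn)⟩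
      have := St.map_star hS b
      rw [hs.star_eq] at this
      exact Complex.conj_eq_iff_im.1 this.symm
    obtain ⟨β, hβ⟩ : ∃ β : ℝ, F b = (β : ℂ) := ⟨(F b).re, Complex.ext rfl hbr.1⟩
    have hβ1 : |β| ≤ 1 := by simpa [hβ] using hbr.2
    obtain ⟨hβa, hβb⟩ := abs_le.1 hβ1
    have hw : ∀ d : D, IsSelfAdjoint d → (∀ x, Commute (hom k x) d) → F (d * d) ≠ 0 →
        (fun x => F (hom k x * (d * d)) / F (d * d)) ∈ W hom K k := by
      intro d hd hdk hne
      have hne' : F (star d * d) ≠ 0 := by rwa [hd.star_eq]
      have e1 : (fun x => F (hom k x * (d * d)) / F (d * d)) = fun x => comp d F (hom k x) := by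
        funext x
        simp only [comp, hd.star_eq, ← mul_assoc, ← (hdk x).eq]
      rw [e1]
      refine ⟨marg_mem_St (comp_mem_St hS hne') _, fun x hx => ?_⟩
      have h2 : star d * (hom k (star x * x)) * d = star (d * hom k x) * (d * hom k x) := by
        rw [← (hdk x).eq]
        simp only [star_mul, map_mul, map_star, mul_assoc]
      simp only [comp, h2, St.left_zero hS (hx F hF) d, zero_div]
    have h2 : c * c + r * r = 1 := by
      rw [hc2, hr2, add_add_add_comm, ← map_add, ← add_smul]
      norm_num
    have hne1 : F (c * c) ≠ 0 := by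
      rw [hFc, hβ]; intro h
      have := congr_arg Complex.re h
      simp at this; linarith
    have hne2 : F (r * r) ≠ 0 := by
      rw [hFr, hβ]; intro h
      have := congr_arg Complex.re h
      simp at this; linarith
    have := (mem_extremePoints_iff_left.1 hω).2 _ (hw c hc hck hne1) _ (hw r hr hrk hne2)
      ⟨(1 / 2 + β / 4 : ℝ), (1 / 2 - β / 4 : ℝ), by linarith, by linarith, by ring, by
        funext x
        have e1 : ((1 / 2 + β / 4 : ℝ) : ℂ) = F (c * c) := by rw [hFc, hβ]; push_cast; ring
        have e2 : ((1 / 2 - β / 4 : ℝ) : ℂ) = F (r * r) := by rw [hFr, hβ]; push_cast; ring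
        simp only [Pi.add_apply, Pi.smul_apply, Complex.real_smul, e1, e2, mul_div_cancel₀ _ hne1,
          mul_div_cancel₀ _ hne2, ← St.add hS, ← mul_add, h2, mul_one, hm]⟩
    have h3 := congr_fun this a
    simp only [div_eq_iff hne1] at h3
    rw [hFc, hc2, mul_add, St.add hS, mul_smul_comm, Algebra.algebraMap_eq_smul_one,
      mul_smul_comm, mul_one, St.rsmul hS, St.rsmul hS, hm] at h3
    push_cast at h3
    linear_combination 4 * h3
  have key2 : ∀ b : D, IsSelfAdjoint b → (∀ x, Commute (hom k x) b) →
      F (hom k a * b) = ω a * F b := by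
    intro b hs hb
    have hn : 0 < ‖b‖ + 1 := by positivity
    have := key ((‖b‖ + 1)⁻¹ • b) ((IsSelfAdjoint.all _).smul hs) (by
      rw [norm_smul, norm_inv, Real.norm_eq_abs, abs_of_pos hn, inv_mul_le_iff₀ hn]
      linarith) fun x => (hb x).smul_right _
    rw [mul_smul_comm, St.rsmul hS, St.rsmul hS] at this
    exact mul_left_cancel₀ (Complex.ofReal_ne_zero.2 (inv_ne_zero hn.ne')) (this.trans (by ring))
  have hbs : ∀ x, Commute (hom k x) (star b) := fun x => by
    simpa [map_star] using (hb (star x)).star_star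
  rw [← realPart_add_I_smul_imaginaryPart b, mul_add, mul_smul_comm, St.add hS, St.add hS,
    St.smul hS, St.smul hS, key2 _ (realPart b).2, key2 _ (imaginaryPart b).2]
  · ring
  · intro x
    rw [imaginaryPart_apply_coe]
    exact (((hb x).sub_right (hbs x)).smul_right _).smul_right _
  · intro x
    rw [realPart_apply_coe]
    exact ((hb x).add_right (hbs x)).smul_right _

section Marginals

variable (hcomm : ∀ j k, j ≠ k → ∀ x y, Commute (hom j x) (hom k y)) [DecidableEq J]

include hcomm

omit hI [DecidableEq J] in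
lemma prd_pairwise (s : Finset J) (x : J → B) :
    (s : Set J).Pairwise (Function.onFun Commute fun j => hom j (x j)) :=
  fun a _ b _ h => hcomm a b h _ _

/-- The product of one element in each copy. -/
def prd (s : Finset J) (x : J → B) : D :=
  s.noncommProd (fun j => hom j (x j)) (prd_pairwise hom hcomm s x)

omit hI [DecidableEq J] in
lemma prd_mem (s : Finset J) (x : J → B) : prd hom hcomm s x ∈ M0 hom :=
  Submonoid.noncommProd_mem _ _ _ _ fun j _ => hom_mem_M0 hom j _

omit hI [DecidableEq J] in
lemma prd_commute {s : Finset J} {k : J} (hk : k ∉ s) (x : J → B) (y : B) :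
    Commute (hom k y) (prd hom hcomm s x) :=
  Finset.noncommProd_commute _ _ _ _ fun j hj => hcomm k j (fun h => hk (h ▸ hj)) _ _

omit hI in
lemma prd_insert {s : Finset J} {k : J} (hk : k ∉ s) (x : J → B) :
    prd hom hcomm (insert k s) x = hom k (x k) * prd hom hcomm s x :=
  Finset.noncommProd_insert_of_notMem _ _ _ _ hk

include hmin

/-- Primeness. -/
lemma prime {k : J} {b : B} {a : D} (ha : a ∈ M0 hom) (hak : ∀ x, Commute (hom k x) a)
    (hd : Dead K (hom k b * a)) : Dead K a ∨ Dead K (hom k b) := by
  by_contra hcon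
  rw [not_or] at hcon
  obtain ⟨hna, hnb⟩ := hcon
  have hc : ∀ c ∈ M0 hom, ∀ b', Dead K (hom k b' * a) → Dead K (hom k b' * c * a) := by
    intro c hc
    induction hc using Submonoid.closure_induction_left with
    | one => intro b' h; rwa [mul_one]
    | mul_left g hg c hc ih =>
      intro b' h
      obtain ⟨j, x, rfl⟩ := Set.mem_iUnion.1 hg
      by_cases hj : j = k
      · subst hj
        rw [← mul_assoc, ← map_mul]
        refine ih (b' * x) ?_
        rw [map_mul, mul_assoc, (hak x).eq, ← mul_assoc]
        exact Dead.right hom hI h (hom_mem_M0 hom j x)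
      · rw [← mul_assoc, (hcomm k j (Ne.symm hj) b' x).eq, mul_assoc (hom j x), mul_assoc]
        exact Dead.left hom hI (ih b' h) _
  let K' : Set (D → ℂ) :=
    {F | F ∈ K ∧ ∀ c ∈ M0 hom, F (star (hom k b * c) * (hom k b * c)) = 0}
  have hK' : Inv hom e K' := by
    refine ⟨?_, ?_, ?_, fun F hF => hI.sub hF.1, ?_⟩
    · simp only [K', Set.ofPred_and, Set.ofPred_forall]
      exact hI.closed.inter (isClosed_iInter fun c => isClosed_iInter fun _ =>
        isClosed_eq (continuous_apply _) continuous_const)
    · intro F hF G hG s t hs ht hst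
      exact ⟨hI.convex hF.1 hG.1 hs ht hst, fun c hc => by
        simp only [Pi.add_apply, Pi.smul_apply, hF.2 c hc, hG.2 c hc, smul_zero, add_zero]⟩
    · simp only [Dead, not_forall] at hna
      obtain ⟨F, hF, hFa⟩ := hna
      refine ⟨comp a F, hI.inv a ha F hF hFa, fun c hc' => ?_⟩
      have h3 : star a * (star (hom k b * c) * (hom k b * c)) * a =
          star (hom k b * c * a) * (hom k b * c * a) := by simp only [star_mul, mul_assoc]
      simp only [comp, h3, hc c hc' b hd F hF, zero_div]
    · intro x hx F hF hne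
      refine ⟨hI.inv x hx F hF.1 hne, fun c hc' => ?_⟩
      have h3 : star x * (star (hom k b * c) * (hom k b * c)) * x =
          star (hom k b * (c * x)) * (hom k b * (c * x)) := by simp only [star_mul, mul_assoc]
      simp only [comp, h3, hF.2 _ (mul_mem hc' hx), zero_div]
  refine hnb fun F hF => ?_
  rw [← hmin K' (fun F hF => hF.1) hK'] at hF
  simpa using hF.2 1 (one_mem _)

lemma alive_prd {s : Finset J} {x : J → B} (h : ∀ j ∈ s, ¬ Dead K (hom j (x j))) :
    ¬ Dead K (prd hom hcomm s x) := by
  induction s using Finset.induction_on with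
  | empty => simpa [prd] using not_dead_one hom hI
  | insert k s hk ih =>
    rw [prd_insert hom hcomm hk]
    intro hd
    rcases prime hom hI hmin hcomm (prd_mem hom hcomm s x) (prd_commute hom hcomm hk x) hd with
      h1 | h1
    · exact ih (fun j hj => h j (Finset.mem_insert_of_mem hj)) h1
    · exact h k (Finset.mem_insert_self _ _) h1

variable [Fintype J]

/-- Prescribed marginals in some copies and prescribed null elements in the others. -/
lemma exists_marg (A : Finset J) (ω : J → B → ℂ) (hω : ∀ k ∈ A, ω k ∈ W hom K k) (q w : J → B)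
    (hqw : ∀ k ∉ A, q k * w k = 0 ∧ ¬ Dead K (hom k (w k))) :
    ∃ F ∈ K, (∀ k ∈ A, ∀ a, F (hom k a) = ω k a) ∧
      ∀ k ∉ A, F (star (hom k (q k)) * hom k (q k)) = 0 := by
  induction A using Finset.induction_on generalizing q w with
  | empty =>
    have halive := alive_prd hom hI hmin hcomm (s := Finset.univ) (x := w)
      fun j _ => (hqw j (Finset.notMem_empty j)).2
    simp only [Dead, not_forall] at halive
    obtain ⟨F, hF, hne⟩ := halive
    refine ⟨comp (prd hom hcomm Finset.univ w) F,
      hI.inv _ (prd_mem hom hcomm _ _) F hF hne, by simp, fun k _ => ?_⟩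
    have h0 : hom k (q k) * prd hom hcomm Finset.univ w = 0 := by
      rw [← Finset.insert_erase (Finset.mem_univ k),
        prd_insert hom hcomm (Finset.notMem_erase k _), ← mul_assoc, ← map_mul,
        (hqw k (Finset.notMem_empty k)).1, map_zero, zero_mul]
    simp only [comp, mul_assoc, h0, mul_zero, St.zero (hI.st hom hF), zero_div]
  | insert k A hk ih =>
    let S : Set (D → ℂ) := {F | F ∈ K ∧ (∀ j ∈ A, ∀ a, F (hom j a) = ω j a) ∧
      ∀ j ∉ insert k A, F (star (hom j (q j)) * hom j (q j)) = 0}
    have hSc : IsCompact S := by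
      refine (hI.compact hom).of_isClosed_subset ?_ fun F hF => hF.1
      simp only [S, Set.ofPred_and, Set.ofPred_forall]
      exact hI.closed.inter ((isClosed_iInter fun j => isClosed_iInter fun _ =>
        isClosed_iInter fun a => isClosed_eq (continuous_apply _) continuous_const).inter
        (isClosed_iInter fun j => isClosed_iInter fun _ =>
          isClosed_eq (continuous_apply _) continuous_const))
    have hScv : Convex ℝ S := by
      intro F hF G hG s t hs ht hst
      refine ⟨hI.convex hF.1 hG.1 hs ht hst, fun j hj a => ?_, fun j hj => ?_⟩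
      · simp only [Pi.add_apply, Pi.smul_apply, hF.2.1 j hj a, hG.2.1 j hj a, ← add_smul, hst,
          one_smul]
      · simp only [Pi.add_apply, Pi.smul_apply, hF.2.2 j hj, hG.2.2 j hj, smul_zero, add_zero]
    let Ws : Set (B → ℂ) := LinearMap.funLeft ℝ ℂ (hom k) '' S
    have hWc : IsCompact Ws :=
      hSc.image (continuous_pi fun a => continuous_apply (hom k a))
    have hmem : ω k ∈ Ws := by
      by_contra hnot
      let t : {a : B // IsSelfAdjoint a} → Set (B → ℂ) :=
        fun a => {G | (G a).re = (ω k a).re}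
      have hωk := hω k (Finset.mem_insert_self _ _)
      obtain ⟨u, hu⟩ := hWc.elim_finite_subfamily_closed t
        (fun a => isClosed_eq (Complex.continuous_re.comp (continuous_apply _)) continuous_const)
        (by
          rw [Set.eq_empty_iff_forall_notMem]
          rintro G ⟨⟨F, hF, rfl⟩, hG⟩
          refine hnot ⟨F, hF, ?_⟩
          have hst : (LinearMap.funLeft ℝ ℂ (hom k) F) ∈ St B :=
            marg_mem_St (hI.st hom hF.1) _
          have hr : ∀ a : B, IsSelfAdjoint a → LinearMap.funLeft ℝ ℂ (hom k) F a = ω k a := by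
            intro a ha
            refine Complex.ext (Set.mem_iInter.1 hG ⟨a, ha⟩) ?_
            have h1 := St.map_star hst a
            have h2 := St.map_star hωk.1 a
            rw [ha.star_eq] at h1 h2
            rw [Complex.conj_eq_iff_im.1 h1.symm, Complex.conj_eq_iff_im.1 h2.symm]
          funext a
          rw [← realPart_add_I_smul_imaginaryPart a, St.add hst, St.smul hst, St.add hωk.1,
            St.smul hωk.1, hr _ (realPart a).2, hr _ (imaginaryPart a).2])
      classical
      let π : (B → ℂ) →ₗ[ℝ] (u → ℝ) := LinearMap.pi fun i =>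
        Complex.reLm.comp (LinearMap.proj (i : {a : B // IsSelfAdjoint a}).1)
      have hπ : ∀ G i, π G i = (G (i : {a : B // IsSelfAdjoint a}).1).re := fun G i => rfl
      have hπc : Continuous π :=
        continuous_pi fun i => Complex.continuous_re.comp (continuous_apply _)
      obtain ⟨f, m, hfx, hfW⟩ := geometric_hahn_banach_point_closed (E := u → ℝ) (x := π (ω k))
        ((hScv.linear_image _).linear_image π) (hWc.image hπc).isClosed (by
          rintro ⟨G, hG, hGx⟩
          refine Set.notMem_empty G (hu ▸ ⟨hG, Set.mem_iInter₂.2 fun a ha => ?_⟩)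
          exact congr_fun hGx ⟨a, ha⟩)
      let c : u → ℝ := fun i => f fun j => if i = j then 1 else 0
      let y : B := (∑ i, c i • (i : {a : B // IsSelfAdjoint a}).1) - m • 1
      have hy : IsSelfAdjoint y :=
        (isSelfAdjoint_sum _ fun i _ => (IsSelfAdjoint.all (c i)).smul
          (i : {a : B // IsSelfAdjoint a}).2).sub ((IsSelfAdjoint.all m).smul (IsSelfAdjoint.one B))
      have hev : ∀ G ∈ St B, (G y).re = f (π G) - m := by
        intro G hG
        have e1 : f (π G) = ∑ i, π G i • c i :=
          LinearMap.pi_apply_eq_sum_univ (f : (u → ℝ) →ₗ[ℝ] ℝ) (π G)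
        rw [e1]
        simp only [y, St.sub hG, St.sum hG, St.rsmul hG, St.one hG, Complex.sub_re,
          Complex.re_sum, Complex.re_ofReal_mul, mul_one, Complex.ofReal_re, smul_eq_mul, hπ]
        congr 1
        exact Finset.sum_congr rfl fun i _ => mul_comm _ _
      let p : B := cfc (fun s : ℝ => max s 0) y
      let n : B := cfc (fun s : ℝ => max (-s) 0) y
      have hp : IsSelfAdjoint p := cfc_predicate _ _
      have hn : IsSelfAdjoint n := cfc_predicate _ _
      have hpn : p * n = 0 := by
        rw [← cfc_mul (fun s : ℝ => max s 0) (fun s => max (-s) 0) y, ← cfc_zero ℝ y]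
        refine cfc_congr fun s _ => ?_
        rcases le_total s 0 with h | h <;> simp [h]
      have hd : p - n = y := by
        rw [← cfc_sub (fun s : ℝ => max s 0) (fun s => max (-s) 0) y]
        conv_rhs => rw [← cfc_id' ℝ y]
        refine cfc_congr fun s _ => ?_
        rcases le_total s 0 with h | h <;> simp [h]
      have hpos : ∀ G ∈ St B, 0 ≤ (G p).re ∧ 0 ≤ (G n).re := by
        intro G hG
        let _ : PartialOrder B := CStarAlgebra.spectralOrder B
        have _ : StarOrderedRing B := CStarAlgebra.spectralOrderedRing B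
        constructor
        · have := St.mono hG (cfc_nonneg (f := fun s : ℝ => max s 0) (a := y)
            fun s _ => le_max_right _ _)
          rw [St.zero hG] at this
          exact (Complex.le_def.1 this).1
        · have := St.mono hG (cfc_nonneg (f := fun s : ℝ => max (-s) 0) (a := y)
            fun s _ => le_max_right _ _)
          rw [St.zero hG] at this
          exact (Complex.le_def.1 this).1
      have hlive : ¬ Dead K (hom k n) := fun hdead => by
        have h1 := St.mul_eq_zero hωk.1 (hωk.2 n hdead) 1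
        rw [one_mul] at h1
        have h2 := hev _ hωk.1
        rw [← hd, St.sub hωk.1, Complex.sub_re, h1, Complex.zero_re] at h2
        linarith [(hpos _ hωk.1).1]
      obtain ⟨F, hF, hFA, hFq⟩ := ih (fun j hj => hω j (Finset.mem_insert_of_mem hj))
        (Function.update q k p) (Function.update w k n) fun j hj => by
          by_cases hjk : j = k
          · subst hjk; simpa using ⟨hpn, hlive⟩
          · simpa [Function.update_of_ne hjk] using hqw j (by simp [hjk, hj])
      have hFS : F ∈ S := ⟨hF, hFA, fun j hj => by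
        rw [Finset.mem_insert, not_or] at hj
        simpa [Function.update_of_ne hj.1] using hFq j hj.2⟩
      have hst : (LinearMap.funLeft ℝ ℂ (hom k) F) ∈ St B := marg_mem_St (hI.st hom hF) _
      have h1 := hfW _ ⟨_, ⟨F, hFS, rfl⟩, rfl⟩
      have h2 := hev _ hst
      rw [← hd, St.sub hst, Complex.sub_re] at h2
      have h3 : LinearMap.funLeft ℝ ℂ (hom k) F p = 0 := by
        have h5 := hFq k hk
        rw [Function.update_self] at h5
        have h4 := St.mul_eq_zero (hI.st hom hF) h5 1
        rwa [one_mul] at h4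
      rw [h3, Complex.zero_re] at h2
      linarith [(hpos _ hst).2]
    obtain ⟨F, hF, hFk⟩ := hmem
    refine ⟨F, hF.1, fun j hj a => ?_, hF.2.2⟩
    rcases Finset.mem_insert.1 hj with rfl | hj
    · exact congr_fun hFk a
    · exact hF.2.1 j hj a

/-- A product state with prescribed extreme marginals. -/
lemma exists_product (ω : J → B → ℂ) (hω : ∀ k, ω k ∈ (W hom K k).extremePoints ℝ) :
    ∃ F ∈ K, ∀ x : J → B, F (prd hom hcomm Finset.univ x) = ∏ k, ω k (x k) := by
  obtain ⟨F, hF, hm, -⟩ := exists_marg hom hI hmin hcomm Finset.univ ω (fun k _ => (hω k).1) 0 0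
    (fun k hk => absurd (Finset.mem_univ k) hk)
  refine ⟨F, hF, fun x => ?_⟩
  suffices h : ∀ s : Finset J, F (prd hom hcomm s x) = ∏ k ∈ s, ω k (x k) from h _
  intro s
  induction s using Finset.induction_on with
  | empty => simpa [prd] using St.one (hI.st hom hF)
  | insert k s hk ih =>
    rw [prd_insert hom hcomm hk, Finset.prod_insert hk,
      factor hom hI hF k (hω k) (hm k (Finset.mem_univ k)) _ (prd_commute hom hcomm hk x), ih]

end Marginals

end Fixed

/-! ## The averaged product state -/

variable (hcomm : ∀ j k, j ≠ k → ∀ x y, Commute (hom j x) (hom k y))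

include hcomm in
/-- A state killing e which is a product over the copies, whose marginals are means of
eigenstates. -/
theorem exists_mean_product [Fintype J] {T : Type*} [Fintype T] [Nonempty T] (z q : T → B)
    (hz : ∀ t, IsSelfAdjoint (z t)) (hz1 : ∀ t, ‖z t‖ ≤ 1) (hq : ∀ t, Full ({q t} : Set B))
    (hzq : ∀ t, z t * q t = q t) {e : D} (he : ¬ Full ({e} : Set D)) :
    ∃ F ∈ Kills e, ∃ ω : J → T → B → ℂ, (∀ j t, ω j t ∈ St B ∧ ω j t (z t) = 1) ∧
      ∀ x : J → B, F (prd hom hcomm Finset.univ x) =
        ∏ j, (Fintype.card T : ℂ)⁻¹ * ∑ t, ω j t (x j) := by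
  classical
  obtain ⟨K, hI, hmin⟩ := exists_min hom he
  choose ω hω hωz using fun j t => exists_eigen hom hI j (hz t) (hz1 t) (hq t) (hzq t)
  choose F hF hFp using fun s : J → T =>
    exists_product hom hI hmin hcomm (fun j => ω j (s j)) fun j => hω j (s j)
  let w : ℝ := (Fintype.card (J → T) : ℝ)⁻¹
  refine ⟨∑ s, w • F s, hI.sub (hI.convex.sum_mem (fun _ _ => by positivity) ?_ fun s _ => hF s),
    ω, fun j t => ⟨(hω j t).1.1, hωz j t⟩, fun x => ?_⟩
  · rw [Finset.sum_const, nsmul_eq_mul, Finset.card_univ]
    exact mul_inv_cancel₀ (Nat.cast_ne_zero.2 Fintype.card_ne_zero)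
  · rw [Finset.sum_apply, Finset.prod_mul_distrib, Finset.prod_const, Fintype.prod_sum,
      Finset.mul_sum]
    refine Finset.sum_congr rfl fun s _ => ?_
    rw [Pi.smul_apply, hFp, Complex.real_smul, Finset.card_univ, inv_pow]
    simp [w]

/-- The closed algebra of the copies in a set. -/
def alg (A : Set J) : StarSubalgebra ℂ D :=
  (StarAlgebra.adjoin ℂ (⋃ j ∈ A, Set.range (hom j))).topologicalClosure

lemma hom_mem_alg {A : Set J} {j : J} (hj : j ∈ A) (x : B) : hom j x ∈ alg hom A :=
  StarSubalgebra.le_topologicalClosure _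
    (StarAlgebra.subset_adjoin ℂ _ (Set.mem_biUnion hj ⟨x, rfl⟩))

lemma alg_mono {A A' : Set J} (h : A ⊆ A') : alg hom A ≤ alg hom A' :=
  StarSubalgebra.topologicalClosure_mono
    (StarAlgebra.adjoin_mono (Set.biUnion_subset_biUnion_left h))

include hcomm in
/-- Factorisation over disjoint sets of copies. -/
theorem mul_of_product [Fintype J] {F : D → ℂ} (hF : F ∈ St D) (m : J → B → ℂ)
    (hm : ∀ j, m j 1 = 1)
    (hFp : ∀ x : J → B, F (prd hom hcomm Finset.univ x) = ∏ j, m j (x j))
    {A A' : Set J} (h : Disjoint A A') {u v : D} (hu : u ∈ alg hom A) (hv : v ∈ alg hom A') :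
    F (u * v) = F u * F v := by
  classical
  let P : Set J → Submonoid D := fun A =>
    { carrier := {d | ∃ x : J → B, (∀ j, j ∉ A → x j = 1) ∧ prd hom hcomm Finset.univ x = d}
      one_mem' := ⟨fun _ => 1, fun _ _ => rfl,
        Finset.noncommProd_induction _ _ _ (fun d => d = 1)
          (fun a b ha hb => by rw [ha, hb, mul_one]) rfl fun j _ => map_one (hom j)⟩
      mul_mem' := by
        rintro _ _ ⟨x, hx, rfl⟩ ⟨y, hy, rfl⟩
        refine ⟨fun j => x j * y j, fun j hj => by simp [hx j hj, hy j hj], ?_⟩
        simp only [prd]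
        rw [← Finset.noncommProd_mul_distrib (fun j => hom j (x j)) (fun j => hom j (y j)) _ _
          fun a _ b _ hab => hcomm a b hab _ _]
        exact Finset.noncommProd_congr rfl (fun j _ => map_mul (hom j) _ _) _ }
  have hspan : ∀ A, ∀ d ∈ StarAlgebra.adjoin ℂ (⋃ j ∈ A, Set.range (hom j)),
      d ∈ Submodule.span ℂ (P A : Set D) := by
    intro A d hd
    have hstar : star (⋃ j ∈ A, Set.range (hom j)) = ⋃ j ∈ A, Set.range (hom j) := by
      ext d
      simp only [Set.mem_star, Set.mem_iUnion, Set.mem_range, exists_prop]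
      constructor <;> rintro ⟨j, hj, x, hx⟩ <;>
        exact ⟨j, hj, star x, by simp [map_star, hx]⟩
    rw [← StarSubalgebra.mem_toSubalgebra, StarAlgebra.adjoin_toSubalgebra, hstar,
      Set.union_self, ← Subalgebra.mem_toSubmodule, Algebra.adjoin_eq_span] at hd
    refine Submodule.span_mono ?_ hd
    refine SetLike.coe_subset_coe.2 (Submonoid.closure_le.2 ?_)
    intro d hd
    obtain ⟨j, hj, x, rfl⟩ := Set.mem_iUnion₂.1 hd
    refine ⟨Function.update (fun _ => 1) j x, fun i hi => by
      rw [Function.update_of_ne]; exact fun hij => hi (hij ▸ hj), ?_⟩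
    rw [← Finset.insert_erase (Finset.mem_univ j),
      prd_insert hom hcomm (Finset.notMem_erase j _), Function.update_self,
      show prd hom hcomm (Finset.univ.erase j) (Function.update (fun _ => (1 : B)) j x) = 1 from ?_,
      mul_one]
    refine Finset.noncommProd_induction _ _ _ (fun d => d = 1) ?_ rfl ?_
    · rintro a b rfl rfl; exact mul_one 1
    · intro i hi
      rw [Function.update_of_ne (Finset.ne_of_mem_erase hi), map_one]
  have key : ∀ a ∈ P A, ∀ b ∈ P A', F (a * b) = F a * F b := by
    rintro _ ⟨x, hx, rfl⟩ _ ⟨y, hy, rfl⟩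
    have e : prd hom hcomm Finset.univ x * prd hom hcomm Finset.univ y =
        prd hom hcomm Finset.univ fun j => x j * y j := by
      simp only [prd]
      rw [← Finset.noncommProd_mul_distrib (fun j => hom j (x j)) (fun j => hom j (y j)) _ _
        fun a _ b _ hab => hcomm a b hab _ _]
      exact Finset.noncommProd_congr rfl (fun j _ => (map_mul (hom j) _ _).symm) _
    rw [e, hFp, hFp, hFp, ← Finset.prod_mul_distrib]
    refine Finset.prod_congr rfl fun j _ => ?_
    by_cases hj : j ∈ A
    · rw [hy j (Set.disjoint_left.1 h hj), mul_one, hm, mul_one]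
    · rw [hx j hj, one_mul, hm, one_mul]
  have hc := St.continuous hF
  have step : ∀ a ∈ P A, ∀ b ∈ alg hom A', F (a * b) = F a * F b := by
    intro a ha
    refine closure_minimal (fun b hb => ?_)
      (isClosed_eq (hc.comp (continuous_const_mul a)) (continuous_const.mul hc))
    show F (a * b) = F a * F b
    refine Submodule.span_induction (p := fun b _ => F (a * b) = F a * F b) (fun b hb => key a ha b hb)
      ?_ (fun b b' _ _ h h' => ?_) (fun c b _ h => ?_) (hspan A' b hb)
    · rw [mul_zero, St.zero hF, mul_zero]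
    · rw [mul_add, St.add hF, St.add hF, h, h', mul_add]
    · rw [mul_smul_comm, St.smul hF, St.smul hF, h]; ring
  refine closure_minimal (t := {a | F (a * v) = F a * F v}) (fun a ha => ?_)
    (isClosed_eq (hc.comp (continuous_mul_const v)) (hc.mul continuous_const)) hu
  show F (a * v) = F a * F v
  refine Submodule.span_induction (p := fun a _ => F (a * v) = F a * F v)
    (fun a ha => step a ha v hv) ?_ (fun b b' _ _ h h' => ?_) (fun c b _ h => ?_) (hspan A a ha)
  · rw [zero_mul, St.zero hF, zero_mul]
  · rw [add_mul, St.add hF, St.add hF, h, h', add_mul]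
  · rw [smul_mul_assoc, St.smul hF, St.smul hF, h]; ring

omit hcomm in
/-- The marginals of such a state. -/
lemma marg_of_product [Fintype J]
    (hcomm : ∀ j k, j ≠ k → ∀ x y, Commute (hom j x) (hom k y)) {F : D → ℂ} (m : J → B → ℂ)
    (hm : ∀ j, m j 1 = 1)
    (hFp : ∀ x : J → B, F (prd hom hcomm Finset.univ x) = ∏ j, m j (x j)) (j : J) (a : B) :
    F (hom j a) = m j a := by
  classical
  have e := hFp (Function.update (fun _ => 1) j a)
  rw [← Finset.insert_erase (Finset.mem_univ j), prd_insert hom hcomm (Finset.notMem_erase j _),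
    Function.update_self, Finset.prod_insert (Finset.notMem_erase j _), Function.update_self,
    show prd hom hcomm (Finset.univ.erase j) (Function.update (fun _ => (1 : B)) j a) = 1 from ?_,
    mul_one, Finset.prod_eq_one (fun i hi => by
      rw [Function.update_of_ne (Finset.ne_of_mem_erase hi), hm]), mul_one] at e
  · exact e
  · refine Finset.noncommProd_induction _ _ _ (fun d => d = 1) ?_ rfl ?_
    · rintro a b rfl rfl; exact mul_one 1
    · intro i hi
      rw [Function.update_of_ne (Finset.ne_of_mem_erase hi), map_one]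

end Vale.Agent.P095.General.Spread
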