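import Vale.Agent.P095.General.Basic
import Vale.Agent.P095.General.Spread.Product

/-!
Unitary letters from an almost symmetry, and the blocks of samples: real parts of long products of
letters in different copies.
-/

noncomputable section

open scoped ComplexOrder
open Complex (I)

namespace Vale.Agent.P095.General.Spread

open Vale.Agent.P101

universe u v

/-! ## Letters -/

section Letter

variable {B : Type u} [CStarAlgebra B]

/-- The function giving the second coordinate of a letter. -/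
def side (s : ℝ) : ℝ := Real.sqrt (1 - s ^ 2 / 2)

/-- The unitary letter of a self-adjoint contraction. -/
def letter (z : B) : B := (Real.sqrt 2)⁻¹ • z + I • cfc side z

lemma continuous_side : Continuous side := by unfold side; fun_prop

lemma commute_side (z : B) : Commute z (cfc side z) :=
  ((Commute.refl z).cfc_real side).symm

lemma inv_sqrt_two_sq : (Real.sqrt 2)⁻¹ * (Real.sqrt 2)⁻¹ = (1 / 2 : ℝ) := by
  rw [← mul_inv, Real.mul_self_sqrt (by norm_num), one_div]

variable {z : B} (hz : IsSelfAdjoint z) (hz1 : ‖z‖ ≤ 1)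

include hz hz1

lemma side_sq : cfc side z * cfc side z = 1 - (1 / 2 : ℝ) • (z * z) := by
  have e : (1 : B) - (1 / 2 : ℝ) • (z * z) = cfc (fun s : ℝ => 1 - 1 / 2 * (s * s)) z := by
    rw [cfc_sub (fun _ : ℝ => (1 : ℝ)) (fun s => 1 / 2 * (s * s)) z,
      cfc_const_mul (1 / 2 : ℝ) (fun s : ℝ => s * s) z, cfc_mul (fun s : ℝ => s) (fun s => s) z,
      cfc_id' ℝ z, cfc_const_one ℝ z]
  rw [e, ← cfc_mul side side z continuous_side.continuousOn continuous_side.continuousOn]
  refine cfc_congr fun s hs => ?_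
  rcases subsingleton_or_nontrivial B with _ | _
  · exact absurd hs (by simp [spectrum.of_subsingleton])
  have h1 : |s| ≤ 1 := by
    rw [← Real.norm_eq_abs]; exact (spectrum.norm_le_norm_of_mem hs).trans hz1
  simp only [side]
  rw [Real.mul_self_sqrt (by nlinarith [sq_abs s, abs_nonneg s])]
  ring

omit hz1 in
lemma star_letter : star (letter z) = (Real.sqrt 2)⁻¹ • z - I • cfc side z := by
  simp only [letter, star_add, star_smul, star_trivial, hz.star_eq,
    (cfc_predicate side z : IsSelfAdjoint _).star_eq]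
  simp [sub_eq_add_neg]

lemma letter_unitary : star (letter z) * letter z = 1 ∧ letter z * star (letter z) = 1 := by
  rw [star_letter hz, letter]
  set a := (Real.sqrt 2)⁻¹ • z with ha
  set b := cfc side z
  have hab : a * b = b * a := ((commute_side z).smul_left _).eq
  have haa : a * a + b * b = 1 := by
    rw [side_sq hz hz1, ha, smul_mul_smul_comm, inv_sqrt_two_sq, add_sub_cancel]
  constructor
  · simp only [sub_mul, mul_add, smul_add, smul_sub, smul_mul_assoc, mul_smul_comm, smul_smul, Complex.I_mul_I,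
      neg_smul, one_smul, hab, ← haa]
    abel
  · simp only [add_mul, mul_sub, smul_add, smul_sub, smul_mul_assoc, mul_smul_comm, smul_smul, Complex.I_mul_I,
      neg_smul, one_smul, hab, ← haa]
    abel

lemma norm_letter : ‖letter z‖ ≤ 1 := by
  rcases subsingleton_or_nontrivial B with _ | _
  · simp [Subsingleton.elim (letter z) 0]
  · have h := CStarRing.norm_star_mul_self (x := letter z)
    rw [(letter_unitary hz hz1).1, norm_one] at h
    nlinarith [norm_nonneg (letter z)]

/-- The values of a letter and its square at an eigenstate. -/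
lemma letter_eigen {ω : B → ℂ} (hω : ω ∈ St B) {ε : ℝ} (hε : ε * ε = 1) (h : ω z = (ε : ℂ)) :
    ω (letter z) = ((Real.sqrt 2)⁻¹ : ℝ) * ((ε : ℂ) + I) ∧
      ω (letter z * letter z) = (ε : ℂ) * I := by
  set d := ε • (1 : B) - z with hd
  have hd0 : ∀ x, ω (x * d) = 0 := by
    refine fun x => St.mul_eq_zero hω (le_antisymm ?_ (St.nonneg hω _)) x
    have e : star d * d = (ε * ε) • (1 : B) - (2 * ε) • z + z * z := by
      simp only [hd, star_sub, star_smul, star_trivial, star_one, hz.star_eq, sub_mul, mul_sub,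
        smul_mul_assoc, mul_smul_comm, one_mul, mul_one, smul_sub, smul_smul, two_mul, add_smul]
      abel
    have h2 : ω (z * z) ≤ 1 := by
      have h3 := St.conj_le hω z 1
      rw [mul_one, star_one, one_mul, St.one hω, mul_one, hz.star_eq] at h3
      exact h3.trans (Complex.real_le_real.2 (pow_le_one₀ (norm_nonneg _) hz1))
    rw [e, St.add hω, St.sub hω, St.rsmul hω, St.rsmul hω, St.one hω, h]
    have e2 : ((ε * ε : ℝ) : ℂ) * 1 - ((2 * ε : ℝ) : ℂ) * (ε : ℂ) = -1 := by
      have : (ε : ℂ) * ε = 1 := by exact_mod_cast hε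
      push_cast; linear_combination (-1 : ℂ) * this
    rw [e2, neg_add_eq_sub]
    exact sub_nonpos.2 h2
  have hxz : ∀ x, ω (x * z) = (ε : ℂ) * ω x := fun x => by
    have h3 := hd0 x
    rw [hd, mul_sub, mul_smul_comm, mul_one, St.sub hω, St.rsmul hω, sub_eq_zero] at h3
    exact h3.symm
  have hzz : ω (z * z) = 1 := by rw [hxz, h]; exact_mod_cast hε
  have hb : ω (cfc side z) = ((Real.sqrt 2)⁻¹ : ℝ) := by
    set w : ℝ := (Real.sqrt 2)⁻¹ with hw
    have hw0 : 0 < w := by positivity
    set k : ℝ → ℝ := fun s => (ε + s) / (2 * (side s + w)) with hk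
    have hkc : Continuous k :=
      (continuous_const.add continuous_id).div ((continuous_side.add continuous_const).const_mul 2)
        fun s => by have := Real.sqrt_nonneg (1 - s ^ 2 / 2); simp only [side, ne_eq]; positivity
    have e : cfc side z - w • (1 : B) = cfc k z * d := by
      have h1 : d = cfc (fun s : ℝ => ε - s) z := by
        rw [cfc_sub (fun _ : ℝ => ε) (fun s => s) z, cfc_id' ℝ z, cfc_const ε z,
          Algebra.algebraMap_eq_smul_one]
      rw [h1, ← cfc_mul k _ z hkc.continuousOn, ← Algebra.algebraMap_eq_smul_one,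
        ← cfc_const w z, ← cfc_sub side (fun _ => w) z continuous_side.continuousOn]
      refine cfc_congr fun s hs => ?_
      rcases subsingleton_or_nontrivial B with _ | _
      · exact absurd hs (by simp [spectrum.of_subsingleton])
      have h1 : |s| ≤ 1 := by
        rw [← Real.norm_eq_abs]; exact (spectrum.norm_le_norm_of_mem hs).trans hz1
      have hs0 : 0 ≤ side s := Real.sqrt_nonneg _
      have hs2 : side s * side s = 1 - s ^ 2 / 2 :=
        Real.mul_self_sqrt (by nlinarith [sq_abs s, abs_nonneg s])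
      have hne : (2 * (side s + w)) ≠ 0 := by positivity
      have hww : w * w = 1 / 2 := inv_sqrt_two_sq
      simp only [hk]
      rw [div_mul_eq_mul_div, eq_div_iff hne]
      linear_combination 2 * hs2 - 2 * hww - hε
    have h2 := congr_arg ω e
    rw [hd0, St.sub hω, St.rsmul hω, St.one hω, mul_one, sub_eq_zero] at h2
    exact h2
  have hzb : ω (z * cfc side z) = (ε : ℂ) * ((Real.sqrt 2)⁻¹ : ℝ) := by
    rw [(commute_side z).eq, hxz, hb]
  have hw2 : (((Real.sqrt 2)⁻¹ : ℝ) : ℂ) * ((Real.sqrt 2)⁻¹ : ℝ) = 1 / 2 := by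
    rw [← Complex.ofReal_mul, inv_sqrt_two_sq]; push_cast; ring
  refine ⟨?_, ?_⟩
  · rw [letter, St.add hω, St.rsmul hω, St.smul hω, h, hb]
    ring
  · simp only [letter, add_mul, mul_add, smul_mul_assoc, mul_smul_comm, side_sq hz hz1,
      (commute_side z).symm.eq, St.add hω, St.rsmul hω, St.smul hω, St.sub hω, St.one hω, hzz, hzb]
    push_cast at hw2 ⊢
    linear_combination (2 * I * (ε : ℂ) + 1) * hw2 + (1 / 2 : ℂ) * Complex.I_sq

lemma norm_letter_pair {ω ω' : B → ℂ} (hω : ω ∈ St B) (hω' : ω' ∈ St B) (h : ω z = 1)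
    (h' : ω' z = -1) :
    ‖ω (letter z) + ω' (letter z)‖ ≤ Real.sqrt 2 ∧
      ‖ω (letter z * letter z) + ω' (letter z * letter z)‖ ≤ Real.sqrt 2 := by
  obtain ⟨a, a2⟩ := letter_eigen hz hz1 hω (ε := 1) (by norm_num) (by simpa using h)
  obtain ⟨b, b2⟩ := letter_eigen hz hz1 hω' (ε := -1) (by norm_num) (by simpa using h')
  constructor
  · have e : ω (letter z) + ω' (letter z) = ((2 * (Real.sqrt 2)⁻¹ : ℝ) : ℂ) * I := by
      rw [a, b]; push_cast; ring
    rw [e, norm_mul, Complex.norm_I, mul_one, Complex.norm_real, Real.norm_eq_abs,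
      abs_of_pos (by positivity)]
    refine le_of_eq ?_
    rw [← div_eq_mul_inv, Real.div_sqrt]
  · rw [a2, b2]; simp

end Letter

/-- The contraction factor of a mean over n pairs of eigenstates. -/
def rho (n : ℕ) : ℝ := (2 * n - 2 + Real.sqrt 2) / (2 * n)

lemma rho_nonneg {n : ℕ} (hn : 0 < n) : 0 ≤ rho n := by
  have : (1 : ℝ) ≤ n := Nat.one_le_cast.2 hn
  have := Real.sqrt_nonneg 2
  exact div_nonneg (by linarith) (by linarith)

lemma rho_lt_one {n : ℕ} (hn : 0 < n) : rho n < 1 := by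
  have : (1 : ℝ) ≤ n := Nat.one_le_cast.2 hn
  rw [rho, div_lt_one (by linarith)]
  have : Real.sqrt 2 < 2 := by rw [Real.sqrt_lt' (by norm_num)]; norm_num
  linarith

lemma norm_mean_le {ι : Type*} [Fintype ι] [DecidableEq ι] (f : ι × Bool → ℂ) (i₀ : ι)
    (h1 : ∀ t, ‖f t‖ ≤ 1) (h2 : ‖f (i₀, true) + f (i₀, false)‖ ≤ Real.sqrt 2) :
    ‖(Fintype.card (ι × Bool) : ℂ)⁻¹ * ∑ t, f t‖ ≤ rho (Fintype.card ι) := by
  rw [norm_mul, norm_inv, Complex.norm_natCast, Fintype.card_prod, Fintype.card_bool,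
    Fintype.sum_prod_type, rho, div_eq_inv_mul]
  push_cast
  rw [mul_comm (Fintype.card ι : ℝ) 2]
  refine mul_le_mul_of_nonneg_left ?_ (by positivity)
  rw [← Finset.add_sum_erase Finset.univ _ (Finset.mem_univ i₀)]
  refine (norm_add_le _ _).trans ?_
  have hr : ‖∑ i ∈ Finset.univ.erase i₀, ∑ b : Bool, f (i, b)‖ ≤
      2 * (Fintype.card ι : ℝ) - 2 := by
    refine (norm_sum_le _ _).trans ((Finset.sum_le_sum (g := fun _ => (2 : ℝ)) fun i _ => ?_).trans
      (le_of_eq ?_))
    · rw [Fintype.sum_bool]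
      linarith [norm_add_le (f (i, true)) (f (i, false)), h1 (i, true), h1 (i, false)]
    · rw [Finset.sum_const, Finset.card_erase_of_mem (Finset.mem_univ _), nsmul_eq_mul,
        Finset.card_univ, Nat.cast_sub (Fintype.card_pos_iff.2 ⟨i₀⟩)]
      push_cast; ring
  have hl : ‖∑ b : Bool, f (i₀, b)‖ ≤ Real.sqrt 2 := by rwa [Fintype.sum_bool]
  linarith

/-! ## Elements in one site -/

section Site

variable {B D : Type u} [CStarAlgebra B] [CStarAlgebra D] {P : Type} {R : ℕ}
  (hom : (P × Fin R) → B →⋆ₐ[ℂ] D)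
  (hcomm : ∀ j k, j ≠ k → ∀ x y, Commute (hom j x) (hom k y))

/-- One element in every copy of a site. -/
def spike [DecidableEq P] (p : P) (x : B) : P × Fin R → B := fun j => if j.1 = p then x else 1

lemma alg_commute {J : Type} (hom : J → B →⋆ₐ[ℂ] D)
    (hcomm : ∀ j k, j ≠ k → ∀ x y, Commute (hom j x) (hom k y)) {A A' : Set J} (h : Disjoint A A')
    {u v : D} (hu : u ∈ alg hom A) (hv : v ∈ alg hom A') : Commute u v := by
  let sA : Set D := ⋃ j ∈ A, Set.range (hom j)
  have h1 : alg hom A' ≤ StarSubalgebra.centralizer ℂ sA := by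
    refine StarSubalgebra.topologicalClosure_minimal (StarAlgebra.adjoin_le ?_) ?_
    · intro d hd
      obtain ⟨k, hk, y, rfl⟩ := Set.mem_iUnion₂.1 hd
      rw [SetLike.mem_coe, StarSubalgebra.mem_centralizer_iff]
      intro s hs
      obtain ⟨j, hj, x, rfl⟩ := Set.mem_iUnion₂.1 hs
      have hjk : j ≠ k := fun e => Set.disjoint_left.1 h hj (e ▸ hk)
      rw [← map_star]
      exact ⟨(hcomm j k hjk _ _).eq, (hcomm j k hjk _ _).eq⟩
    · rw [StarSubalgebra.coe_centralizer]; exact Set.isClosed_centralizer _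
  have h2 : alg hom A ≤ StarSubalgebra.centralizer ℂ {v} := by
    refine StarSubalgebra.topologicalClosure_minimal (StarAlgebra.adjoin_le ?_) ?_
    · intro d hd
      rw [SetLike.mem_coe, StarSubalgebra.mem_centralizer_iff]
      intro s hs
      rw [Set.mem_singleton_iff] at hs
      subst hs
      obtain ⟨j, hj, x, rfl⟩ := Set.mem_iUnion₂.1 hd
      have h3 := (StarSubalgebra.mem_centralizer_iff ℂ).1 (h1 hv) _ (Set.mem_biUnion hj ⟨x, rfl⟩)
      have h4 := (StarSubalgebra.mem_centralizer_iff ℂ).1 (h1 (star_mem hv)) _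
        (Set.mem_biUnion hj ⟨x, rfl⟩)
      exact ⟨h3.1.symm, h4.1.symm⟩
    · rw [StarSubalgebra.coe_centralizer]; exact Set.isClosed_centralizer _
  have h3 := ((StarSubalgebra.mem_centralizer_iff ℂ).1 (h2 hu) v rfl).1
  exact h3.symm

variable [Fintype P] [DecidableEq P]

/-- The product of the copies of an element along one site. -/
def pr (p : P) (x : B) : D := prd hom hcomm Finset.univ (spike p x)

lemma pr_one (p : P) : pr hom hcomm p 1 = 1 := by
  refine Finset.noncommProd_induction _ _ (prd_pairwise hom hcomm _ _) (fun d => d = 1)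
    (fun a b ha hb => by rw [ha, hb, mul_one]) rfl fun j _ => ?_
  simp [spike]

lemma pr_mul (p : P) (x y : B) : pr hom hcomm p (x * y) = pr hom hcomm p x * pr hom hcomm p y := by
  simp only [pr, prd]
  rw [← Finset.noncommProd_mul_distrib (fun j => hom j (spike p x j))
    (fun j => hom j (spike p y j)) _ _ fun a _ b _ hab => hcomm a b hab _ _]
  refine Finset.noncommProd_congr rfl (fun j _ => ?_) _
  rw [Pi.mul_apply, ← map_mul]
  by_cases h : j.1 = p <;> simp [spike, h]

lemma star_prd (s : Finset (P × Fin R)) (x : P × Fin R → B) :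
    star (prd hom hcomm s x) = prd hom hcomm s fun j => star (x j) := by
  induction s using Finset.induction_on with
  | empty => exact star_one D
  | insert k s hk ih =>
    rw [prd_insert hom hcomm hk, prd_insert hom hcomm hk, star_mul, ih, map_star]
    have h := (prd_commute hom hcomm hk x (x k)).star_star
    rw [ih] at h
    exact h.eq.symm

lemma pr_star (p : P) (x : B) : star (pr hom hcomm p x) = pr hom hcomm p (star x) := by
  rw [pr, star_prd]
  refine Finset.noncommProd_congr rfl (fun j _ => ?_) _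
  by_cases h : j.1 = p <;> simp [spike, h]

lemma pr_mem (p : P) (x : B) : pr hom hcomm p x ∈ alg hom {j | j.1 ∈ ({p} : Set P)} := by
  refine Finset.noncommProd_induction _ _ (prd_pairwise hom hcomm _ _) (fun d => d ∈ alg hom {j | j.1 ∈ ({p} : Set P)})
    (fun a b => mul_mem) (one_mem _) fun j _ => ?_
  by_cases h : j.1 = p
  · exact hom_mem_alg hom (by simp [h]) _
  · simp [spike, h]

lemma norm_pr_le {F : D → ℂ} {m : P × Fin R → B → ℂ} (hm : ∀ j, m j 1 = 1)
    (hFp : ∀ x, F (prd hom hcomm Finset.univ x) = ∏ j, m j (x j)) (p : P) {x : B} {ρ : ℝ}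
    (hx : ∀ j, ‖m j x‖ ≤ ρ) : ‖F (pr hom hcomm p x)‖ ≤ ρ ^ R := by
  rw [pr, hFp, Fintype.prod_prod_type, Finset.prod_eq_single p (fun q _ hq => by
    refine Finset.prod_eq_one fun l _ => ?_
    simp [spike, hq, hm]) (fun h => absurd (Finset.mem_univ p) h), norm_prod]
  calc ∏ l, ‖m (p, l) (spike p x (p, l))‖ ≤ ∏ _l : Fin R, ρ :=
        Finset.prod_le_prod (fun l _ => norm_nonneg _) fun l _ => by simpa [spike] using hx (p, l)
    _ = ρ ^ R := by simp

/-- The sample at a site. -/
def sample (p : P) (x : B) : D :=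
  (Real.sqrt 2 / 2) • (pr hom hcomm p x + star (pr hom hcomm p x))

lemma sample_mem (p : P) (x : B) : sample hom hcomm p x ∈ alg hom {j | j.1 ∈ ({p} : Set P)} := by
  rw [sample, ← Complex.coe_smul]
  exact SMulMemClass.smul_mem _ (add_mem (pr_mem hom hcomm p x) (star_mem (pr_mem hom hcomm p x)))

variable {x : B} (hx : star x * x = 1) (hx' : x * star x = 1)

include hx

lemma norm_sample (p : P) : ‖sample hom hcomm p x‖ ≤ 2 := by
  have h1 : ‖pr hom hcomm p x‖ ≤ 1 := by
    rcases subsingleton_or_nontrivial D with _ | _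
    · simp [Subsingleton.elim (pr hom hcomm p x) 0]
    · have h := CStarRing.norm_star_mul_self (x := pr hom hcomm p x)
      rw [pr_star, ← pr_mul, hx, pr_one, norm_one] at h
      nlinarith [norm_nonneg (pr hom hcomm p x)]
  have h2 : ‖pr hom hcomm p x + star (pr hom hcomm p x)‖ ≤ 2 :=
    (norm_add_le _ _).trans (by rw [norm_star]; linarith)
  have h3 : Real.sqrt 2 ≤ 2 := by rw [Real.sqrt_le_iff]; norm_num
  rw [sample, norm_smul, Real.norm_eq_abs, abs_of_nonneg (by positivity)]
  nlinarith [norm_nonneg (pr hom hcomm p x + star (pr hom hcomm p x)), Real.sqrt_nonneg 2]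

include hx'

lemma sample_bounds {F : D → ℂ} (hF : F ∈ St D) {m : P × Fin R → B → ℂ} (hm : ∀ j, m j 1 = 1)
    (hFp : ∀ y, F (prd hom hcomm Finset.univ y) = ∏ j, m j (y j)) (p : P) {ρ : ℝ}
    (h1 : ∀ j, ‖m j x‖ ≤ ρ) (h2 : ∀ j, ‖m j (x * x)‖ ≤ ρ) :
    ‖F (sample hom hcomm p x)‖ ≤ 2 * ρ ^ R ∧
      ‖F (sample hom hcomm p x * sample hom hcomm p x) - 1‖ ≤ ρ ^ R := by
  have a1 := norm_pr_le hom hcomm hm hFp p h1
  have a2 := norm_pr_le hom hcomm hm hFp p h2
  have hw : Real.sqrt 2 / 2 * (Real.sqrt 2 / 2) = 1 / 2 := by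
    rw [div_mul_div_comm, Real.mul_self_sqrt (by norm_num)]; norm_num
  constructor
  · rw [sample, St.rsmul hF, St.add hF, St.map_star hF, norm_mul, Complex.norm_real,
      Real.norm_eq_abs, abs_of_nonneg (by positivity)]
    have h3 : Real.sqrt 2 ≤ 2 := by rw [Real.sqrt_le_iff]; norm_num
    calc Real.sqrt 2 / 2 * ‖F (pr hom hcomm p x) + star (F (pr hom hcomm p x))‖
        ≤ 1 * (ρ ^ R + ρ ^ R) :=
          mul_le_mul (by linarith) ((norm_add_le _ _).trans (by rw [norm_star]; linarith))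
            (norm_nonneg _) zero_le_one
      _ = 2 * ρ ^ R := by ring
  · have e : sample hom hcomm p x * sample hom hcomm p x = (1 / 2 : ℝ) •
        (pr hom hcomm p (x * x) + star (pr hom hcomm p (x * x)) + (1 + 1)) := by
      rw [sample, smul_mul_smul_comm, hw]
      congr 1
      simp only [add_mul, mul_add, pr_star, ← pr_mul, hx, hx', pr_one, star_mul]
      abel
    have e2 : F (sample hom hcomm p x * sample hom hcomm p x) - 1 =
        (1 / 2 : ℝ) * (F (pr hom hcomm p (x * x)) + star (F (pr hom hcomm p (x * x)))) := by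
      rw [e, St.rsmul hF, St.add hF, St.add hF, St.add hF, St.map_star hF, St.one hF]
      push_cast; ring
    rw [e2, norm_mul, Complex.norm_real, Real.norm_eq_abs, abs_of_pos (by norm_num)]
    linarith [norm_add_le (F (pr hom hcomm p (x * x))) (star (F (pr hom hcomm p (x * x)))),
      norm_star (F (pr hom hcomm p (x * x)))]

end Site

/-! ## Blocks -/

/-- Samples in independent sites, equivariantly indexed by the group, with states killing any
given proper ideal for which the samples indexed by ι are nearly centred of variance one. -/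
structure Blocks {G : Type v} [Group G] {D : Type u} [CStarAlgebra D] (sys : Sys G D)
    (ι : Finset G) (I : Type) (R : ℕ) (ρ : ℝ) where
  x : I × Fin R → G → D
  out : Set (I × Fin R) → StarSubalgebra ℂ D
  out_closed : ∀ A, IsClosed (out A : Set D)
  out_mono : ∀ {A A'}, A ⊆ A' → out A ≤ out A'
  out_comm : ∀ {A A'}, Disjoint A A' → ∀ a ∈ out A, ∀ b ∈ out A', Commute a b
  mem : ∀ p g, x p g ∈ out {p}
  sa : ∀ p g, IsSelfAdjoint (x p g)
  norm_le : ∀ p g, ‖x p g‖ ≤ 2
  act_x : ∀ h p g, sys.act h (x p g) = x p (h * g)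
  state : ∀ e : D, ¬ Full ({e} : Set D) → ∃ F ∈ Kills e,
    (∀ {A A'}, Disjoint A A' → ∀ a ∈ out A, ∀ b ∈ out A', F (a * b) = F a * F b) ∧
    ∀ p, ∀ g ∈ ι, ‖F (x p g)‖ ≤ 2 * ρ ^ R ∧ ‖F (x p g * x p g) - 1‖ ≤ ρ ^ R

/-- Blocks exist. -/
theorem exists_blocks (hIng : IngredientStatement.{u, v}) {G : Type v} [Group G] [Countable G]
    {D : Type u} [CStarAlgebra D] (sys : Sys G D) {ι : Finset G} (hι : ι.Nonempty) :
    ∃ ρ : ℝ, 0 ≤ ρ ∧ ρ < 1 ∧
      ∀ (I : Type) [Fintype I] (R : ℕ), Nonempty (Blocks sys ι I R ρ) := by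
  classical
  refine ⟨rho ι.card, rho_nonneg hι.card_pos, rho_lt_one hι.card_pos, fun I _ R => ?_⟩
  obtain ⟨z, -, p₁, p₂, hz, hz1, -, -, hzp1, hzp2, hp1, hp2, -⟩ := hIng G D sys 1 one_pos
  obtain ⟨n1, a1, c1, b1, hc1, e1⟩ := full_exists_sum hp1
  obtain ⟨n2, a2, c2, b2, hc2, e2⟩ := full_exists_sum hp2
  let S : Set D := {z, p₁, p₂} ∪ (Set.range a1 ∪ Set.range b1 ∪ (Set.range a2 ∪ Set.range b2))
  have hS : S.Countable := (((Set.toFinite _).countable).union
    (((Set.countable_range _).union (Set.countable_range _)).union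
      ((Set.countable_range _).union (Set.countable_range _))))
  obtain ⟨c, hcact, -, -⟩ := sys.exists_copies S hS
  let B := ↥(gen sys.act S)
  let Z : B := ⟨z, subset_gen (Or.inl (Or.inl rfl))⟩
  let Q₁ : B := ⟨p₁, subset_gen (Or.inl (Or.inr (Or.inl rfl)))⟩
  let Q₂ : B := ⟨p₂, subset_gen (Or.inl (Or.inr (Or.inr rfl)))⟩
  have hQ1 : Full ({Q₁} : Set B) := by
    refine full_of_sum (p := fun i => (⟨a1 i, subset_gen (Or.inr (Or.inl (Or.inl ⟨i, rfl⟩)))⟩ : B))
      (x := fun _ => Q₁)
      (q := fun i => (⟨b1 i, subset_gen (Or.inr (Or.inl (Or.inr ⟨i, rfl⟩)))⟩ : B)) (fun _ => rfl) ?_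
    refine Subtype.ext ?_
    rw [AddSubmonoidClass.coe_finsetSum]
    refine (Finset.sum_congr rfl fun i _ => ?_).trans e1
    show a1 i * p₁ * b1 i = a1 i * c1 i * b1 i
    rw [Set.mem_singleton_iff.1 (hc1 i)]
  have hQ2 : Full ({Q₂} : Set B) := by
    refine full_of_sum (p := fun i => (⟨a2 i, subset_gen (Or.inr (Or.inr (Or.inl ⟨i, rfl⟩)))⟩ : B))
      (x := fun _ => Q₂)
      (q := fun i => (⟨b2 i, subset_gen (Or.inr (Or.inr (Or.inr ⟨i, rfl⟩)))⟩ : B)) (fun _ => rfl) ?_
    refine Subtype.ext ?_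
    rw [AddSubmonoidClass.coe_finsetSum]
    refine (Finset.sum_congr rfl fun i _ => ?_).trans e2
    show a2 i * p₂ * b2 i = a2 i * c2 i * b2 i
    rw [Set.mem_singleton_iff.1 (hc2 i)]
  let γ : G → B ≃⋆ₐ[ℂ] B := fun g => genAct sys.act_mul S g
  have hZ : ∀ g, IsSelfAdjoint (γ g Z) ∧ ‖γ g Z‖ ≤ 1 := fun g => by
    refine ⟨(show IsSelfAdjoint Z from Subtype.ext hz.star_eq).map (γ g), ?_⟩
    show ‖sys.act g z‖ ≤ 1
    rw [norm_act]; exact hz1
  let u : G → B := fun g => letter (γ g Z)
  have hu : ∀ h g, γ h (u g) = u (h * g) := fun h g => by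
    have e : γ h (γ g Z) = γ (h * g) Z := (genAct_mul sys.act_mul h g Z).symm
    have hmc : γ h (cfc side (γ g Z)) = cfc side (γ h (γ g Z)) :=
      StarAlgHomClass.map_cfc (R := ℝ) (S := ℂ) (γ h) side (γ g Z) continuous_side.continuousOn
        (continuous_act (γ h)) (hZ g).1 (e ▸ (hZ (h * g)).1)
    show γ h (letter (γ g Z)) = letter (γ (h * g) Z)
    rw [letter, letter, ← Complex.coe_smul, ← Complex.coe_smul (Real.sqrt 2)⁻¹, map_add, map_smul,
      map_smul, hmc, e]
  let emb : (I × Fin R) × Fin R ↪ ℕ :=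
    (Fintype.equivFin _).toEmbedding.trans Fin.valEmbedding
  let hom : (I × Fin R) × Fin R → B →⋆ₐ[ℂ] D := fun j => c.hom (emb j)
  have hcomm : ∀ j k, j ≠ k → ∀ x y, Commute (hom j x) (hom k y) :=
    fun j k h => c.comm _ _ (emb.injective.ne h)
  refine ⟨{
    x := fun p g => sample hom hcomm p (u g)
    out := fun A => alg hom {j | j.1 ∈ A}
    out_closed := fun A => (StarAlgebra.adjoin ℂ _).isClosed_topologicalClosure
    out_mono := fun h => alg_mono hom fun j hj => h hj
    out_comm := fun h a ha b hb =>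
      alg_commute hom hcomm (h.preimage Prod.fst) ha hb
    mem := fun p g => sample_mem hom hcomm p (u g)
    sa := fun p g => (IsSelfAdjoint.all _).smul (IsSelfAdjoint.add_star_self _)
    norm_le := fun p g => norm_sample hom hcomm (letter_unitary (hZ g).1 (hZ g).2).1 p
    act_x := ?_
    state := ?_ }⟩
  · intro h p g
    have e : sys.act h (pr hom hcomm p (u g)) = pr hom hcomm p (u (h * g)) := by
      simp only [pr, prd]
      rw [Finset.map_noncommProd]
      refine Finset.noncommProd_congr rfl (fun j _ => ?_) _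
      by_cases hj : j.1 = p
      · simp only [spike, hj, ↓reduceIte, hom]
        rw [← hcact, ← hu]
      · simp [spike, hj]
    simp only [sample]
    rw [← Complex.coe_smul, map_smul, map_add, map_star, e, Complex.coe_smul]
  · intro e he
    have : Nonempty ↥ι := ⟨⟨_, hι.choose_spec⟩⟩
    let zz : ↥ι × Bool → B := fun t => if t.2 then γ t.1 Z else -γ t.1 Z
    let qq : ↥ι × Bool → B := fun t => if t.2 then γ t.1 Q₁ else γ t.1 Q₂
    have hZ1 : Z * Q₁ = Q₁ := Subtype.ext hzp1
    have hZ2 : Z * Q₂ = -Q₂ := Subtype.ext hzp2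
    obtain ⟨F, hF, ω, hω, hFp⟩ := exists_mean_product hom hcomm (T := ↥ι × Bool) zz qq
      (fun t => by rcases t with ⟨g, b⟩; cases b <;> simp [zz, (hZ g).1, IsSelfAdjoint.neg])
      (fun t => by rcases t with ⟨g, b⟩; cases b <;> simp [zz, (hZ g).2])
      (fun t => by
        rcases t with ⟨g, b⟩
        cases b
        · simpa [qq, Set.image_singleton] using full_map (γ g) hQ2
        · simpa [qq, Set.image_singleton] using full_map (γ g) hQ1)
      (fun t => by
        rcases t with ⟨g, b⟩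
        cases b
        · simp only [zz, qq, Bool.false_eq_true, ↓reduceIte]
          rw [neg_mul, ← map_mul, hZ2, map_neg, neg_neg]
        · simp [zz, qq, ← map_mul, hZ1]) he
    set m : (I × Fin R) × Fin R → B → ℂ :=
      fun j a => (Fintype.card (↥ι × Bool) : ℂ)⁻¹ * ∑ t, ω j t a with hm
    have hm1 : ∀ j, m j 1 = 1 := fun j => by
      simp only [hm, St.one (hω j _).1, Finset.sum_const, Finset.card_univ, nsmul_eq_mul, mul_one]
      exact inv_mul_cancel₀ (Nat.cast_ne_zero.2 Fintype.card_ne_zero)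
    refine ⟨F, hF, fun h a ha b hb =>
      mul_of_product hom hcomm hF.1 m hm1 hFp (h.preimage Prod.fst) ha hb, fun p g hg => ?_⟩
    have hb1 : ∀ j, ‖m j (u g)‖ ≤ rho ι.card ∧ ‖m j (u g * u g)‖ ≤ rho ι.card := fun j => by
      have h1 := (hω j (⟨g, hg⟩, true)).2
      have h2 := (hω j (⟨g, hg⟩, false)).2
      simp only [zz, Bool.false_eq_true, ↓reduceIte, St.neg (hω j _).1] at h1 h2
      obtain ⟨r1, r2⟩ := norm_letter_pair (hZ g).1 (hZ g).2 (hω j (⟨g, hg⟩, true)).1
        (hω j (⟨g, hg⟩, false)).1 h1 (neg_eq_iff_eq_neg.1 h2)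
      rw [← Fintype.card_coe ι]
      refine ⟨norm_mean_le (fun t => ω j t (u g)) ⟨g, hg⟩ (fun t =>
        (St.norm_le (hω j t).1 _).trans (norm_letter (hZ g).1 (hZ g).2)) r1,
        norm_mean_le (fun t => ω j t (u g * u g)) ⟨g, hg⟩ (fun t =>
        (St.norm_le (hω j t).1 _).trans ((norm_mul_le _ _).trans (mul_le_one₀
          (norm_letter (hZ g).1 (hZ g).2) (norm_nonneg _) (norm_letter (hZ g).1 (hZ g).2)))) r2⟩
    exact sample_bounds hom hcomm (letter_unitary (hZ g).1 (hZ g).2).1
      (letter_unitary (hZ g).1 (hZ g).2).2 hF.1 hm1 hFp p (fun j => (hb1 j).1) fun j => (hb1 j).2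

end Vale.Agent.P095.General.Spread
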