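import Vale.Agent.P095.General.Block
import Vale.Agent.P095.General.Spread.Letter
import Vale.Agent.P095.General.Spread.Expi

/-!
Collective elements and kernels of blocks: moments under a product state, almost centring, small
variance of kernels and small commutators.
-/

noncomputable section

open scoped ComplexOrder
open Finset

namespace Vale.Agent.P095.General.Spread

open Vale.Agent.P101

universe u v

variable {G : Type v} [Group G] {D : Type u} [CStarAlgebra D] {sys : Sys G D} {ι : Finset G}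
  {I : Type} {R : ℕ} {ρ : ℝ}

/-- The sites of a group. -/
def grp (a : I) : Set (I × Fin R) := {p | p.1 = a}

/-- The sites of some blocks in a group. -/
def sites (a : I) (s : Finset (Fin R)) : Set (I × Fin R) := {p | p.1 = a ∧ p.2 ∈ s}

lemma singleton_subset_grp (a : I) (r : Fin R) : ({(a, r)} : Set (I × Fin R)) ⊆ grp a := by
  rintro p rfl; rfl

lemma singleton_subset_sites (a : I) {s : Finset (Fin R)} {r : Fin R} (hr : r ∈ s) :
    ({(a, r)} : Set (I × Fin R)) ⊆ sites a s := by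
  rintro p rfl; exact ⟨rfl, hr⟩

lemma disjoint_sites (a : I) {s : Finset (Fin R)} {r : Fin R} (hr : r ∉ s) :
    Disjoint ({(a, r)} : Set (I × Fin R)) (sites a s) :=
  Set.disjoint_singleton_left.2 fun h => hr h.2

lemma disjoint_site (a b : I) {r s : Fin R} (h : r ≠ s) :
    Disjoint ({(a, r)} : Set (I × Fin R)) {(b, s)} :=
  Set.disjoint_singleton_left.2 fun e => h (congrArg Prod.snd e)

lemma disjoint_grp {a b : I} (h : a ≠ b) : Disjoint (grp (R := R) a) (grp b) :=
  Set.disjoint_left.2 fun _ ha hb => h (ha.symm.trans hb)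

lemma sin_div_sq_le {η : ℝ} (hη : 0 < η) (s : ℝ) :
    Real.sin (η * s) / η * (Real.sin (η * s) / η) ≤ s * s ∧
      (Real.sin (η * s) / η - s) * (Real.sin (η * s) / η - s) ≤ η * (s * s) * (η * (s * s)) := by
  constructor
  · have := sq_le_sq.2 (Real.abs_sin_le_abs (x := η * s))
    rw [div_mul_div_comm, div_le_iff₀ (by positivity)]
    linarith
  · have h1 := abs_sin_sub_le (η * s)
    have h2 : |Real.sin (η * s) / η - s| ≤ η * (s * s) := by
      rw [show Real.sin (η * s) / η - s = (Real.sin (η * s) - η * s) / η by field_simp,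
        abs_div, abs_of_pos hη, div_le_iff₀ hη]
      linarith
    rw [← abs_mul_abs_self]
    exact mul_le_mul h2 h2 (abs_nonneg _) ((abs_nonneg _).trans h2)

lemma bsin_bounds [PartialOrder D] [StarOrderedRing D] {η : ℝ} (hη : 0 < η) {S : D}
    (hS : IsSelfAdjoint S) :
    star (bsin η S) * bsin η S ≤ star S * S ∧
      star (bsin η S - S) * (bsin η S - S) ≤ star (η • (S * S)) * (η • (S * S)) := by
  have hf : Continuous fun s : ℝ => Real.sin (η * s) / η := by fun_prop
  have hg : Continuous fun s : ℝ => Real.sin (η * s) / η - s := hf.sub continuous_id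
  have hq : Continuous fun s : ℝ => η * (s * s) := by fun_prop
  have hsq : Continuous fun s : ℝ => s * s := by fun_prop
  have e1 : S * S = cfc (fun s : ℝ => s * s) S := by
    rw [cfc_mul (fun s : ℝ => s) (fun s => s) S, cfc_id' ℝ S]
  have e2 : bsin η S - S = cfc (fun s : ℝ => Real.sin (η * s) / η - s) S := by
    rw [bsin, cfc_sub (fun s : ℝ => Real.sin (η * s) / η) (fun s => s) S hf.continuousOn
      continuous_id.continuousOn, cfc_id' ℝ S]
  have e3 : η • (S * S) = cfc (fun s : ℝ => η * (s * s)) S := by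
    rw [e1, cfc_const_mul η (fun s : ℝ => s * s) S hsq.continuousOn]
  constructor
  · rw [(bsin_sa η S).star_eq, hS.star_eq, e1, bsin, ← cfc_mul _ _ S hf.continuousOn hf.continuousOn]
    exact cfc_mono (fun s _ => (sin_div_sq_le hη s).1) (hf.mul hf).continuousOn hsq.continuousOn
  · rw [((bsin_sa η S).sub hS).star_eq, ((IsSelfAdjoint.all η).smul
      (show IsSelfAdjoint (S * S) from by
        rw [IsSelfAdjoint, star_mul, hS.star_eq])).star_eq, e2, e3,
      ← cfc_mul _ _ S hg.continuousOn hg.continuousOn,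
      ← cfc_mul _ _ S hq.continuousOn hq.continuousOn]
    exact cfc_mono (fun s _ => (sin_div_sq_le hη s).2) (hg.mul hg).continuousOn
      (hq.mul hq).continuousOn

namespace Blocks

variable (bl : Blocks sys ι I R ρ)

/-- The collective element of a group. -/
def S (a : I) (g : G) : D := coll fun r => bl.x (a, r) g

/-- Its bounded version. -/
def fh (η : ℝ) (a : I) (g : G) : D := bsin η (bl.S a g)

/-- The covariant kernel. -/
def Kh [DecidableEq G] (θ : ℝ) (a : I) (g h : G) : D :=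
  if g = h then 1 else (1 - θ) • kern (fun r => bl.x (a, r) g) fun r => bl.x (a, r) h

lemma S_sa (a : I) (g : G) : IsSelfAdjoint (bl.S a g) := coll_sa fun _ => bl.sa _ _

lemma mem_sites (a : I) (g : G) {s : Finset (Fin R)} {r : Fin R} (hr : r ∈ s) :
    bl.x (a, r) g ∈ bl.out (sites a s) :=
  bl.out_mono (singleton_subset_sites a hr) (bl.mem _ _)

lemma rsmul_mem {A : Set (I × Fin R)} (t : ℝ) {y : D} (hy : y ∈ bl.out A) : t • y ∈ bl.out A := by
  rw [← Complex.coe_smul]; exact SMulMemClass.smul_mem _ hy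

lemma cfc_mem' {A : Set (I × Fin R)} (f : ℝ → ℝ) {y : D} (hy : y ∈ bl.out A) :
    cfc f y ∈ bl.out A :=
  cfc_mem (𝕜' := ℂ) (hs := bl.out_closed A) f hy

lemma S_mem (a : I) (g : G) : bl.S a g ∈ bl.out (grp a) :=
  bl.rsmul_mem _ (sum_mem fun r _ => bl.out_mono (singleton_subset_grp a r) (bl.mem _ _))

lemma fh_mem (η : ℝ) (a : I) (g : G) : bl.fh η a g ∈ bl.out (grp a) :=
  bl.cfc_mem' _ (bl.S_mem a g)

lemma xx_mem (a : I) (r : Fin R) (g h : G) :
    bl.x (a, r) g * bl.x (a, r) h ∈ bl.out {(a, r)} := mul_mem (bl.mem _ _) (bl.mem _ _)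

lemma kern_mem (a : I) (g h : G) :
    kern (fun r => bl.x (a, r) g) (fun r => bl.x (a, r) h) ∈ bl.out (grp a) :=
  bl.rsmul_mem _ (sum_mem fun r _ => bl.out_mono (singleton_subset_grp a r) (bl.xx_mem a r g h))

lemma star_kern (a : I) (g h : G) :
    star (kern (fun r => bl.x (a, r) g) fun r => bl.x (a, r) h) =
      kern (fun r => bl.x (a, r) h) fun r => bl.x (a, r) g := by
  simp [kern, star_sum, star_mul, (bl.sa _ _).star_eq]

lemma star_Kh [DecidableEq G] (θ : ℝ) (a : I) (g h : G) :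
    star (bl.Kh θ a g h) = bl.Kh θ a h g := by
  unfold Blocks.Kh
  by_cases e : g = h
  · rw [if_pos e, if_pos e.symm, star_one]
  · rw [if_neg e, if_neg (Ne.symm e), star_smul, star_trivial, bl.star_kern]

lemma norm_xx (a : I) (r : Fin R) (g h : G) : ‖bl.x (a, r) g * bl.x (a, r) h‖ ≤ 4 :=
  (norm_mul_le _ _).trans <| (mul_le_mul (bl.norm_le _ _) (bl.norm_le _ _) (norm_nonneg _)
    zero_le_two).trans_eq (by norm_num)

lemma act_S (k : G) (a : I) (g : G) : sys.act k (bl.S a g) = bl.S a (k * g) := by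
  simp only [Blocks.S, coll]
  rw [← Complex.coe_smul, map_smul, map_sum, Complex.coe_smul]
  simp only [bl.act_x]

lemma act_fh {η : ℝ} (k : G) (a : I) (g : G) :
    sys.act k (bl.fh η a g) = bl.fh η a (k * g) := by
  simp only [Blocks.fh, bsin]
  rw [StarAlgHomClass.map_cfc (R := ℝ) (S := ℂ) (sys.act k) (fun s : ℝ => Real.sin (η * s) / η)
    (bl.S a g) (by fun_prop) (continuous_act _) (bl.S_sa a g)
    (bl.act_S k a g ▸ bl.S_sa a (k * g)), bl.act_S]

lemma act_Kh [DecidableEq G] (θ : ℝ) (k : G) (a : I) (g h : G) :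
    sys.act k (bl.Kh θ a g h) = bl.Kh θ a (k * g) (k * h) := by
  unfold Blocks.Kh
  by_cases e : g = h
  · rw [if_pos e, if_pos (by rw [e]), map_one]
  · rw [if_neg e, if_neg (fun he => e (mul_left_cancel he))]
    simp only [kern]
    rw [← Complex.coe_smul, ← Complex.coe_smul, map_smul, map_smul, map_sum, Complex.coe_smul,
      Complex.coe_smul]
    simp only [map_mul, bl.act_x]

lemma fh_eq (η : ℝ) (a : I) (g : G) :
    bl.fh η a g = η⁻¹ • cfc Real.sin (η • bl.S a g) := by
  rw [Blocks.fh, bsin, ← cfc_comp_const_mul η Real.sin (bl.S a g) (by fun_prop) (bl.S_sa a g),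
    ← cfc_smul η⁻¹ (fun s : ℝ => Real.sin (η * s)) (bl.S a g)]
  exact cfc_congr fun s _ => by simp [div_eq_inv_mul]

/-! ## Commutators -/

lemma comm_expi (a : I) (g : G) (t : ℝ) (z : Fin R → D) (hz : ∀ r, z r ∈ bl.out {(a, r)})
    (hz4 : ∀ r, ‖z r‖ ≤ 4) (s : Finset (Fin R)) :
    ‖expi (∑ r ∈ s, t • bl.x (a, r) g) * (∑ r, z r) -
      (∑ r, z r) * expi (∑ r ∈ s, t • bl.x (a, r) g)‖ ≤ s.card * (16 * |t|) := by
  induction s using Finset.induction_on with
  | empty => simp [expi_zero]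
  | insert r s hr ih =>
    set x := t • bl.x (a, r) g with hx
    set Y := ∑ r ∈ s, t • bl.x (a, r) g with hY
    set Z := ∑ r, z r with hZ
    have hxs : IsSelfAdjoint x := (IsSelfAdjoint.all t).smul (bl.sa _ _)
    have hYs : IsSelfAdjoint Y := isSelfAdjoint_sum _ fun r _ =>
      (IsSelfAdjoint.all t).smul (bl.sa _ _)
    have hxY : Commute x Y :=
      bl.out_comm (disjoint_sites a hr) _ (bl.rsmul_mem t (bl.mem _ _)) _
        (sum_mem fun r hr => bl.rsmul_mem t (bl.mem_sites a g hr))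
    rw [Finset.sum_insert hr, expi_add hxY, card_insert_of_notMem hr]
    have h1 : ‖expi x * Z - Z * expi x‖ ≤ 16 * |t| := by
      have hmem : expi x ∈ bl.out {(a, r)} := by
        rw [expi_eq hxs]
        exact add_mem (bl.cfc_mem' _ (bl.rsmul_mem t (bl.mem _ _)))
          (SMulMemClass.smul_mem _ (bl.cfc_mem' _ (bl.rsmul_mem t (bl.mem _ _))))
      have e : expi x * Z - Z * expi x = (expi x - 1) * z r - z r * (expi x - 1) := by
        rw [hZ, mul_sum, sum_mul, ← sum_sub_distrib, sum_eq_single r (fun q _ hq =>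
          sub_eq_zero.2 (bl.out_comm (disjoint_site a a (Ne.symm hq)) _ hmem _ (hz q)).eq)
          (fun h => absurd (mem_univ r) h), sub_mul, mul_sub, one_mul, mul_one]
        abel
      have hn : ‖expi x - 1‖ ≤ 2 * |t| := by
        refine (norm_expi_sub_one_le hxs).trans ?_
        rw [hx, norm_smul, Real.norm_eq_abs, mul_comm 2]
        exact mul_le_mul_of_nonneg_left (bl.norm_le _ _) (abs_nonneg t)
      have := abs_nonneg t
      rw [e]
      refine (norm_sub_le _ _).trans ?_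
      have a1 := (norm_mul_le (expi x - 1) (z r)).trans
        (mul_le_mul hn (hz4 r) (norm_nonneg _) (by positivity))
      have a2 := (norm_mul_le (z r) (expi x - 1)).trans
        (mul_le_mul (hz4 r) hn (norm_nonneg _) (by norm_num))
      linarith
    have e2 : expi x * expi Y * Z - Z * (expi x * expi Y) =
        expi x * (expi Y * Z - Z * expi Y) + (expi x * Z - Z * expi x) * expi Y := by
      rw [mul_sub, sub_mul]; simp only [mul_assoc]; abel
    rw [e2]
    refine (norm_add_le _ _).trans ?_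
    have a1 := (norm_mul_le (expi x) (expi Y * Z - Z * expi Y)).trans
      (mul_le_mul (norm_expi_le hxs) ih (norm_nonneg _) zero_le_one)
    have a2 := (norm_mul_le (expi x * Z - Z * expi x) (expi Y)).trans
      (mul_le_mul h1 (norm_expi_le hYs) (norm_nonneg _) (by positivity))
    push_cast
    linarith

lemma comm_fh_kern {η : ℝ} (hη : 0 < η) (a : I) (g g' h : G) :
    ‖bl.fh η a g * kern (fun r => bl.x (a, r) g') (fun r => bl.x (a, r) h) -
      kern (fun r => bl.x (a, r) g') (fun r => bl.x (a, r) h) * bl.fh η a g‖ ≤ 16 * rt R := by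
  rcases Nat.eq_zero_or_pos R with rfl | hR
  · simp [Blocks.fh, kern, rt]
  have hR' : (0 : ℝ) < R := Nat.cast_pos.2 hR
  set k := kern (fun r => bl.x (a, r) g') fun r => bl.x (a, r) h with hk
  set c := cfc Real.sin (η • bl.S a g)
  have e0 : η • bl.S a g = ∑ r, (η * rt R) • bl.x (a, r) g := by
    simp only [Blocks.S, coll, smul_smul, smul_sum]
  have hsa : IsSelfAdjoint (η • bl.S a g) := (IsSelfAdjoint.all η).smul (bl.S_sa a g)
  have hf : bl.fh η a g = η⁻¹ • c := bl.fh_eq η a g
  have hb : ∀ g' h : G,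
      ‖expi (η • bl.S a g) * kern (fun r => bl.x (a, r) g') (fun r => bl.x (a, r) h) -
        kern (fun r => bl.x (a, r) g') (fun r => bl.x (a, r) h) * expi (η • bl.S a g)‖ ≤
      16 * η * rt R := by
    intro g' h
    rw [kern, mul_smul_comm, smul_mul_assoc, ← smul_sub, norm_smul, Real.norm_eq_abs,
      abs_of_nonneg (by positivity), e0]
    refine (mul_le_mul_of_nonneg_left (bl.comm_expi a g (η * rt R) _
      (fun r => bl.xx_mem a r g' h) (fun r => bl.norm_xx a r g' h) univ) (by positivity)).trans ?_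
    rw [card_univ, Fintype.card_fin, abs_of_nonneg (mul_nonneg hη.le (rt_nonneg R)),
      ← mul_assoc ((R : ℝ)⁻¹), inv_mul_cancel₀ hR'.ne', one_mul]
    linarith
  have hs := two_smul_sin hsa
  set e := expi (η • bl.S a g) with he
  have h2 : ‖star e * k - k * star e‖ ≤ 16 * η * rt R := by
    refine le_of_eq_of_le ?_ (hb h g')
    rw [← norm_star (star e * k - k * star e), star_sub, star_mul, star_mul, star_star, hk,
      bl.star_kern, norm_sub_rev]
  have h3 : ‖(2 * Complex.I) • (c * k - k * c)‖ ≤ 32 * η * rt R := by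
    rw [smul_sub, ← smul_mul_assoc, ← mul_smul_comm, hs, sub_mul, mul_sub]
    have h4 : e * k - star e * k - (k * e - k * star e) =
        (e * k - k * e) - (star e * k - k * star e) := by abel
    rw [h4]
    refine (norm_sub_le _ _).trans ?_
    linarith [hb g' h]
  rw [norm_smul, norm_mul, Complex.norm_I, mul_one, Complex.norm_ofNat] at h3
  rw [hf, smul_mul_assoc, mul_smul_comm, ← smul_sub, norm_smul, norm_inv, Real.norm_eq_abs,
    abs_of_pos hη, inv_mul_le_iff₀ hη]
  linarith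

lemma comm_kern (a : I) (g h g' h' : G) :
    ‖kern (fun r => bl.x (a, r) g) (fun r => bl.x (a, r) h) *
        kern (fun r => bl.x (a, r) g') (fun r => bl.x (a, r) h') -
      kern (fun r => bl.x (a, r) g') (fun r => bl.x (a, r) h') *
        kern (fun r => bl.x (a, r) g) (fun r => bl.x (a, r) h)‖ ≤ 32 / R := by
  rw [kern, kern, smul_mul_smul_comm, smul_mul_smul_comm, ← smul_sub, norm_smul,
    Real.norm_eq_abs, abs_of_nonneg (by positivity)]
  refine (mul_le_mul_of_nonneg_left (norm_comm_sums (fun r => bl.norm_xx a r g h)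
    (fun r => bl.norm_xx a r g' h') fun r s hrs =>
      bl.out_comm (disjoint_site a a hrs) _ (bl.xx_mem a r g h) _ (bl.xx_mem a s g' h'))
    (by positivity)).trans ?_
  rcases Nat.eq_zero_or_pos R with rfl | hR
  · simp
  · have : (R : ℝ) ≠ 0 := by positivity
    exact le_of_eq (by field_simp; ring)

/-! ## Moments -/

section Moments

variable {F : D → ℂ} (hF : F ∈ St D)
  (hmul : ∀ {A A' : Set (I × Fin R)}, Disjoint A A' → ∀ a ∈ bl.out A, ∀ b ∈ bl.out A',
    F (a * b) = F a * F b)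
  (hb : ∀ p, ∀ g ∈ ι, ‖F (bl.x p g)‖ ≤ 2 * ρ ^ R ∧ ‖F (bl.x p g * bl.x p g) - 1‖ ≤ ρ ^ R)
  (hρ : 0 ≤ ρ) (hsmall : ((R : ℝ) + 1) ^ 4 * ρ ^ R ≤ 1 / 100)

include hF hmul hb hρ hsmall

lemma moments (a : I) {g : G} (hg : g ∈ ι) (s : Finset (Fin R)) :
    ‖F (∑ r ∈ s, bl.x (a, r) g)‖ ≤ s.card * (2 * ρ ^ R) ∧
      ‖F ((∑ r ∈ s, bl.x (a, r) g) ^ 2)‖ ≤ 3 * s.card ∧
      ‖F ((∑ r ∈ s, bl.x (a, r) g) ^ 4)‖ ≤ 40 * (s.card : ℝ) ^ 2 := by
  induction s using Finset.induction_on with
  | empty => simp [St.zero hF]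
  | insert r s hr ih =>
    obtain ⟨i1, i2, i4⟩ := ih
    set x := bl.x (a, r) g with hx
    set Y := ∑ r ∈ s, bl.x (a, r) g with hY
    have hxm : x ∈ bl.out {(a, r)} := bl.mem _ _
    have hYm : Y ∈ bl.out (sites a s) := sum_mem fun r hr => bl.mem_sites a g hr
    have hxY : Commute x Y := bl.out_comm (disjoint_sites a hr) _ hxm _ hYm
    have hm : ∀ i j : ℕ, F (x ^ i * Y ^ j) = F (x ^ i) * F (Y ^ j) := fun i j =>
      hmul (disjoint_sites a hr) _ (pow_mem hxm i) _ (pow_mem hYm j)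
    obtain ⟨b1, b2⟩ := hb (a, r) g hg
    have hρR : 0 ≤ ρ ^ R := pow_nonneg hρ R
    have hk : (s.card : ℝ) ≤ R := by
      exact_mod_cast (card_le_univ s).trans_eq (Fintype.card_fin R)
    have hk0 : (0 : ℝ) ≤ s.card := Nat.cast_nonneg _
    have hpow : ∀ n : ℕ, ‖F (x ^ n)‖ ≤ 2 ^ n := fun n => by
      cases n with
      | zero => simp [St.one hF]
      | succ n => exact (St.norm_le hF _).trans ((norm_pow_le' x n.succ_pos).trans
          (pow_le_pow_left₀ (norm_nonneg _) (bl.norm_le _ _) _))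
    have hR1 : (R : ℝ) ≤ R + 1 := by linarith
    have hsm1 : ρ ^ R ≤ 1 / 100 :=
      le_trans (le_mul_of_one_le_left hρR (one_le_pow₀ (by linarith [Nat.cast_nonneg (α := ℝ) R])))
        hsmall
    have hsm : ∀ n ≤ 4, (s.card : ℝ) ^ n * ρ ^ R ≤ 1 / 100 := fun n hn =>
      le_trans (mul_le_mul_of_nonneg_right ((pow_le_pow_left₀ hk0 (hk.trans hR1) n).trans
        (pow_le_pow_right₀ (by linarith [Nat.cast_nonneg (α := ℝ) R]) hn)) hρR) hsmall
    have hY3 : ‖F (Y ^ 3)‖ ≤ 8 * (s.card : ℝ) ^ 3 := by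
      refine (St.norm_le hF _).trans ((norm_pow_le' Y (by norm_num)).trans ?_)
      have : ‖Y‖ ≤ 2 * s.card := by
        refine (norm_sum_le _ _).trans ((sum_le_sum (g := fun _ => (2 : ℝ)) fun r _ =>
          bl.norm_le _ _).trans_eq ?_)
        rw [sum_const, nsmul_eq_mul]; ring
      exact (pow_le_pow_left₀ (norm_nonneg _) this 3).trans_eq (by ring)
    have hx2 : ‖F (x ^ 2)‖ ≤ 1 + 1 / 100 := by
      rw [pow_two]
      have := norm_add_le (F (x * x) - 1) 1
      rw [sub_add_cancel, norm_one] at this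
      linarith
    rw [sum_insert hr, card_insert_of_notMem hr, ← hY, ← hx]
    push_cast
    refine ⟨?_, ?_, ?_⟩
    · rw [St.add hF]
      exact (norm_add_le _ _).trans (by linarith)
    · have e : (x + Y) ^ 2 = x ^ 2 + (2 : ℂ) • (x ^ 1 * Y ^ 1) + Y ^ 2 := by
        rw [pow_two, pow_two, pow_two, pow_one, pow_one, two_smul, add_mul, mul_add, mul_add,
          hxY.eq]
        abel
      rw [e, St.add hF, St.add hF, St.smul hF, hm, pow_one x, pow_one Y]
      refine (norm_add₃_le).trans ?_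
      rw [norm_mul, norm_mul, Complex.norm_ofNat]
      have h1 : ‖F x‖ * ‖F Y‖ ≤ 2 * ρ ^ R * (s.card * (2 * ρ ^ R)) :=
        mul_le_mul b1 i1 (norm_nonneg _) (by positivity)
      have h2 := hsm 1 (by norm_num)
      nlinarith
    · have e : (x + Y) ^ 4 = x ^ 4 + (4 : ℂ) • (x ^ 3 * Y ^ 1) + (6 : ℂ) • (x ^ 2 * Y ^ 2) +
          (4 : ℂ) • (x ^ 1 * Y ^ 3) + Y ^ 4 := by
        rw [hxY.add_pow]
        simp only [sum_range_succ, sum_range_zero]
        norm_num [Nat.choose, Algebra.smul_def, map_ofNat]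
        simp only [← mul_assoc]
        rw [show (4 : D) * x ^ 3 = x ^ 3 * 4 from (Commute.ofNat_left 4 _).eq,
          show (6 : D) * x ^ 2 = x ^ 2 * 6 from (Commute.ofNat_left 6 _).eq,
          show (4 : D) * x = x * 4 from (Commute.ofNat_left 4 _).eq]
        simp only [mul_assoc, show (4 : D) * Y = Y * 4 from (Commute.ofNat_left 4 _).eq,
          show (6 : D) * Y ^ 2 = Y ^ 2 * 6 from (Commute.ofNat_left 6 _).eq,
          show (4 : D) * Y ^ 3 = Y ^ 3 * 4 from (Commute.ofNat_left 4 _).eq]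
        abel
      rw [e, St.add hF, St.add hF, St.add hF, St.add hF, St.smul hF, St.smul hF, St.smul hF,
        hm, hm, hm]
      simp only [pow_one]
      refine (norm_add_le _ _).trans (le_trans (add_le_add_left ((norm_add_le _ _).trans
        (add_le_add_left norm_add₃_le _)) _) ?_)
      simp only [norm_mul, Complex.norm_ofNat]
      have h1 := mul_le_mul (hpow 3) i1 (norm_nonneg _) (by positivity)
      have h2 := mul_le_mul hx2 i2 (norm_nonneg _) (by positivity)
      have h3 := mul_le_mul b1 hY3 (norm_nonneg _) (by positivity)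
      have h4 := hsm 3 (by norm_num)
      have h5 := hsm 1 (by norm_num)
      have h6 := hpow 4
      norm_num at h1 h6
      nlinarith

lemma nrm_S (hR : 0 < R) (a : I) {g : G} (hg : g ∈ ι) :
    St.nrm hF (bl.S a g) ≤ 2 ∧ St.nrm hF (bl.S a g * bl.S a g) ≤ 7 := by
  have hR' : (0 : ℝ) < R := Nat.cast_pos.2 hR
  obtain ⟨-, h2, h4⟩ := bl.moments hF hmul hb hρ hsmall a hg univ
  rw [card_univ, Fintype.card_fin] at h2 h4
  set Y := ∑ r, bl.x (a, r) g
  have e : bl.S a g = rt R • Y := rfl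
  have hYs : IsSelfAdjoint Y := isSelfAdjoint_sum _ fun r _ => bl.sa _ _
  constructor
  · refine Real.sqrt_le_iff.2 ⟨by norm_num, ?_⟩
    rw [e, star_smul, star_trivial, hYs.star_eq, smul_mul_smul_comm, rt_mul_self, St.rsmul hF,
      Complex.re_ofReal_mul, ← pow_two]
    refine le_trans (mul_le_mul_of_nonneg_left ((Complex.re_le_norm _).trans h2) (by positivity)) ?_
    rw [mul_left_comm, inv_mul_cancel₀ hR'.ne']
    norm_num
  · refine Real.sqrt_le_iff.2 ⟨by norm_num, ?_⟩
    rw [e, smul_mul_smul_comm, rt_mul_self, star_smul, star_trivial, star_mul, hYs.star_eq,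
      smul_mul_smul_comm, St.rsmul hF, Complex.re_ofReal_mul,
      show Y * Y * (Y * Y) = Y ^ 4 by simp only [pow_succ, pow_zero, one_mul, mul_assoc]]
    refine le_trans (mul_le_mul_of_nonneg_left ((Complex.re_le_norm _).trans h4) (by positivity)) ?_
    rw [show (R : ℝ)⁻¹ * (R : ℝ)⁻¹ * (40 * (R : ℝ) ^ 2) = 40 by field_simp]
    norm_num

lemma nrm_fh {η : ℝ} (hη : 0 < η) (hR : 0 < R) (a : I) {g : G} (hg : g ∈ ι) :
    St.nrm hF (bl.fh η a g) ≤ 2 ∧ St.nrm hF (bl.fh η a g - bl.S a g) ≤ 7 * η := by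
  let _ : PartialOrder D := CStarAlgebra.spectralOrder D
  have _ : StarOrderedRing D := CStarAlgebra.spectralOrderedRing D
  obtain ⟨n2, n4⟩ := bl.nrm_S hF hmul hb hρ hsmall hR a hg
  obtain ⟨h1, h2⟩ := bsin_bounds hη (bl.S_sa a g)
  have hmono : ∀ {y w : D}, star y * y ≤ star w * w → St.nrm hF y ≤ St.nrm hF w := fun h =>
    Real.sqrt_le_sqrt (Complex.le_def.1 (St.mono hF h)).1
  refine ⟨(hmono h1).trans n2, (hmono h2).trans ?_⟩
  rw [St.nrm_rsmul hF, abs_of_pos hη]
  nlinarith

lemma norm_SS_sub_kern (hR : 0 < R) (a : I) {g h : G} (hg : g ∈ ι) (hh : h ∈ ι) :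
    ‖F (bl.S a g * bl.S a h) - F (kern (fun r => bl.x (a, r) g) fun r => bl.x (a, r) h)‖ ≤
      4 * R * ρ ^ R := by
  have hR' : (0 : ℝ) < R := Nat.cast_pos.2 hR
  have hρR : 0 ≤ ρ ^ R := pow_nonneg hρ R
  rw [Blocks.S, Blocks.S, coll_mul_coll, St.add hF, add_sub_cancel_left, St.rsmul hF, norm_mul,
    Complex.norm_real, Real.norm_eq_abs, abs_of_pos (inv_pos.2 hR'), inv_mul_le_iff₀ hR', St.sum hF]
  have h0 : ρ ^ R ≤ 1 := by
    have := le_trans (le_mul_of_one_le_left hρR (one_le_pow₀ (n := 4) (by linarith))) hsmall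
    linarith
  refine (norm_sum_le _ _).trans ((sum_le_sum (g := fun _ => (R : ℝ) * (4 * ρ ^ R)) fun r _ => ?_)
    |>.trans_eq ?_)
  · rw [St.sum hF]
    refine (norm_sum_le _ _).trans ((sum_le_sum (g := fun _ => 4 * ρ ^ R) fun s hs => ?_).trans ?_)
    · rw [hmul (disjoint_site a a (ne_of_mem_erase hs).symm) _ (bl.mem _ _) _ (bl.mem _ _),
        norm_mul]
      refine (mul_le_mul (hb _ g hg).1 (hb _ h hh).1 (norm_nonneg _) (by positivity)).trans ?_
      nlinarith
    · rw [sum_const, nsmul_eq_mul]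
      refine mul_le_mul_of_nonneg_right ?_ (by positivity)
      exact_mod_cast (card_erase_le.trans_eq (by simp))
  · rw [sum_const, card_univ, Fintype.card_fin, nsmul_eq_mul]; ring

omit hb hρ hsmall in
lemma nrm_kern_sub (a : I) (g h : G) :
    St.nrm hF (kern (fun r => bl.x (a, r) g) (fun r => bl.x (a, r) h) -
      F (kern (fun r => bl.x (a, r) g) fun r => bl.x (a, r) h) • 1) ≤ 8 * rt R := by
  set c : Fin R → D := fun r =>
    bl.x (a, r) g * bl.x (a, r) h - F (bl.x (a, r) g * bl.x (a, r) h) • 1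
  have e : kern (fun r => bl.x (a, r) g) (fun r => bl.x (a, r) h) -
      F (kern (fun r => bl.x (a, r) g) fun r => bl.x (a, r) h) • 1 = (R : ℝ)⁻¹ • ∑ r, c r := by
    simp only [c, kern, sum_sub_distrib, smul_sub, ← sum_smul, St.rsmul hF, St.sum hF]
    rw [← Complex.coe_smul ((R : ℝ)⁻¹) (((∑ r, F (bl.x (a, r) g * bl.x (a, r) h)) : ℂ) • (1 : D)),
      smul_smul]
  rw [e, St.nrm_rsmul hF, abs_of_nonneg (by positivity)]
  have hcm : ∀ r, c r ∈ bl.out {(a, r)} := fun r =>
    sub_mem (bl.xx_mem a r g h) (SMulMemClass.smul_mem _ (one_mem _))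
  have hc0 : ∀ r, F (c r) = 0 := fun r => by
    simp only [c, St.sub hF, St.smul hF, St.one hF, mul_one, sub_self]
  have hn : ∀ r, ‖c r‖ ≤ 8 := fun r => by
    refine (norm_sub_le _ _).trans ?_
    rw [norm_smul]
    have h1 := bl.norm_xx a r g h
    have h2 := (St.norm_le hF (bl.x (a, r) g * bl.x (a, r) h)).trans h1
    rcases subsingleton_or_nontrivial D with _ | _
    · simp [Subsingleton.elim (1 : D) 0]; linarith
    · rw [norm_one, mul_one]; linarith
  have hsq : St.nrm hF (∑ r, c r) ≤ Real.sqrt (R * 64) := by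
    refine Real.sqrt_le_sqrt ?_
    rw [star_sum, sum_mul, St.sum hF, Complex.re_sum]
    refine (sum_le_sum (g := fun _ => (64 : ℝ)) fun r _ => ?_).trans_eq (by simp)
    rw [mul_sum, St.sum hF, sum_eq_single r (fun s _ hs => ?_) (fun h => absurd (mem_univ r) h)]
    · rw [← St.sq_nrm hF]
      refine (pow_le_pow_left₀ (St.nrm_nonneg hF _) ((St.nrm_le_norm hF _).trans (hn r)) 2).trans ?_
      norm_num
    · rw [hmul (disjoint_site a a (Ne.symm hs)) _ (star_mem (hcm r)) _ (hcm s), hc0, mul_zero]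
  refine (mul_le_mul_of_nonneg_left hsq (by positivity)).trans ?_
  rcases Nat.eq_zero_or_pos R with rfl | hR
  · simp [rt]
  · have hR' : (0 : ℝ) < R := Nat.cast_pos.2 hR
    rw [Real.sqrt_mul hR'.le, show Real.sqrt 64 = 8 by rw [show (64 : ℝ) = 8 ^ 2 by norm_num,
      Real.sqrt_sq (by norm_num)], rt]
    have hs : Real.sqrt R ≠ 0 := by positivity
    refine le_of_eq ?_
    field_simp
    rw [Real.sq_sqrt hR'.le]

omit hsmall in
lemma im_expi (a : I) {g : G} (hg : g ∈ ι) {t : ℝ} (ht : 0 ≤ t) (s : Finset (Fin R)) :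
    |(F (expi (∑ r ∈ s, t • bl.x (a, r) g))).im| ≤ s.card * (2 * t * ρ ^ R + 2 * t ^ 3) := by
  induction s using Finset.induction_on with
  | empty => simp [expi_zero, St.one hF]
  | insert r s hr ih =>
    set x := t • bl.x (a, r) g with hx
    set Y := ∑ r ∈ s, t • bl.x (a, r) g with hY
    have hxs : IsSelfAdjoint x := (IsSelfAdjoint.all t).smul (bl.sa _ _)
    have hYs : IsSelfAdjoint Y := isSelfAdjoint_sum _ fun r _ =>
      (IsSelfAdjoint.all t).smul (bl.sa _ _)
    have hxm : x ∈ bl.out {(a, r)} := bl.rsmul_mem t (bl.mem _ _)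
    have hYm : Y ∈ bl.out (sites a s) := sum_mem fun r hr => bl.rsmul_mem t (bl.mem_sites a g hr)
    have he : ∀ {A : Set (I × Fin R)} {y : D}, IsSelfAdjoint y → y ∈ bl.out A →
        expi y ∈ bl.out A := by
      intro A y hy hm
      rw [expi_eq hy]
      exact add_mem (bl.cfc_mem' _ hm) (SMulMemClass.smul_mem _ (bl.cfc_mem' _ hm))
    rw [Finset.sum_insert hr, expi_add (bl.out_comm (disjoint_sites a hr) _ hxm _ hYm),
      card_insert_of_notMem hr, hmul (disjoint_sites a hr) _ (he hxs hxm) _ (he hYs hYm)]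
    have hreal : ∀ f : ℝ → ℝ, (F (cfc f x)).im = 0 := fun f => by
      have := St.map_star hF (cfc f x)
      rw [(cfc_predicate f x : IsSelfAdjoint _).star_eq] at this
      exact Complex.conj_eq_iff_im.1 this.symm
    have him : (F (expi x)).im = (F (cfc Real.sin x)).re := by
      rw [expi_eq hxs, St.add hF, St.smul hF, Complex.add_im, hreal, Complex.I_mul_im, zero_add]
    have h1 : |(F (expi x)).im| ≤ 2 * t * ρ ^ R + 2 * t ^ 3 := by
      rw [him]
      refine (Complex.abs_re_le_norm _).trans ?_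
      have e : F (cfc Real.sin x) = (t : ℂ) * F (bl.x (a, r) g) + F (cfc Real.sin x - x) := by
        rw [St.sub hF, hx, St.rsmul hF]; ring
      rw [e]
      refine (norm_add_le _ _).trans (add_le_add ?_ ?_)
      · rw [norm_mul, Complex.norm_real, Real.norm_eq_abs, abs_of_nonneg ht]
        linarith [mul_le_mul_of_nonneg_left (hb (a, r) g hg).1 ht]
      · refine (St.norm_le hF _).trans ((norm_sin_sub_le hxs).trans ?_)
        have : ‖x‖ ≤ t * 2 := by
          rw [hx, norm_smul, Real.norm_eq_abs, abs_of_nonneg ht]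
          exact mul_le_mul_of_nonneg_left (bl.norm_le _ _) ht
        have := pow_le_pow_left₀ (norm_nonneg _) this 3
        nlinarith [pow_nonneg ht 3]
    have hle : ∀ y : D, IsSelfAdjoint y → ‖F (expi y)‖ ≤ 1 := fun y hy =>
      (St.norm_le hF _).trans (norm_expi_le hy)
    rw [Complex.mul_im]
    refine (abs_add_le _ _).trans ?_
    rw [abs_mul, abs_mul]
    push_cast
    have a1 := mul_le_mul ((Complex.abs_re_le_norm _).trans (hle x hxs)) ih (abs_nonneg _)
      zero_le_one
    have a2 := mul_le_mul h1 ((Complex.abs_re_le_norm _).trans (hle Y hYs)) (abs_nonneg _)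
      (by positivity)
    linarith

lemma norm_fh_mean {η : ℝ} (hη : 0 < η) (hη1 : η ≤ 1) (a : I) {g : G} (hg : g ∈ ι) :
    ‖F (bl.fh η a g)‖ ≤ 2 * R * ρ ^ R + 2 * rt R := by
  rcases Nat.eq_zero_or_pos R with rfl | hR
  · simp [Blocks.fh, bsin, Blocks.S, coll, rt, St.zero hF]
  have hR' : (0 : ℝ) < R := Nat.cast_pos.2 hR
  set t := η * rt R with ht
  have ht0 : 0 ≤ t := mul_nonneg hη.le (rt_nonneg R)
  have e0 : η • bl.S a g = ∑ r, t • bl.x (a, r) g := by
    simp only [Blocks.S, coll, smul_smul, smul_sum, ht]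
  have hsa : IsSelfAdjoint (η • bl.S a g) := (IsSelfAdjoint.all η).smul (bl.S_sa a g)
  have h := bl.im_expi hF hmul hb hρ a hg ht0 univ
  rw [← e0, card_univ, Fintype.card_fin, expi_eq hsa, St.add hF, St.smul hF] at h
  have hreal : ∀ f : ℝ → ℝ, (F (cfc f (η • bl.S a g))).im = 0 := fun f => by
    have := St.map_star hF (cfc f (η • bl.S a g))
    rw [(cfc_predicate f (η • bl.S a g) : IsSelfAdjoint _).star_eq] at this
    exact Complex.conj_eq_iff_im.1 this.symm
  rw [Complex.add_im, hreal, Complex.I_mul_im, zero_add] at h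
  have hnorm : ∀ z : ℂ, z.im = 0 → ‖z‖ = |z.re| := fun z hz => by
    conv_lhs => rw [← Complex.re_add_im z, hz]
    simp
  have hf : bl.fh η a g = η⁻¹ • cfc Real.sin (η • bl.S a g) := bl.fh_eq η a g
  rw [hf, St.rsmul hF, norm_mul, hnorm _ (hreal _), Complex.norm_real, Real.norm_eq_abs,
    abs_of_pos (inv_pos.2 hη), inv_mul_le_iff₀ hη]
  refine h.trans ?_
  have hrt : rt R ≤ 1 := by
    refine inv_le_one_of_one_le₀ (Real.one_le_sqrt.2 ?_)
    exact_mod_cast hR
  have h3 : (R : ℝ) * t ^ 3 = η ^ 3 * rt R := by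
    rw [ht, mul_pow, pow_succ (rt R) 2, pow_two (rt R), rt_mul_self]
    field_simp
  have h4 : η ^ 3 ≤ η := pow_le_of_le_one hη.le hη1 (by norm_num)
  have h5 : t ≤ η := mul_le_of_le_one_right hη.le hrt
  have hρR : 0 ≤ ρ ^ R := pow_nonneg hρ R
  calc (R : ℝ) * (2 * t * ρ ^ R + 2 * t ^ 3)
      = 2 * R * t * ρ ^ R + 2 * ((R : ℝ) * t ^ 3) := by ring
    _ ≤ 2 * R * η * ρ ^ R + 2 * (η * rt R) := by
        rw [h3]
        gcongr
        exact rt_nonneg R
    _ = η * (2 * R * ρ ^ R + 2 * rt R) := by ring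

end Moments

end Blocks

end Vale.Agent.P095.General.Spread
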