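import Mathlib
import Vale.Agent.P101.Defs

/-!
States as functions, compressions, and a state killing a proper ideal.
-/

noncomputable section

open scoped ComplexOrder

namespace Vale.Agent.P095.General.Spread

open Vale.Agent.P101

universe u

variable {D : Type u} [CStarAlgebra D]

/-- The set of states, as functions. -/
def St (D : Type u) [CStarAlgebra D] : Set (D → ℂ) :=
  {F | (∀ a b, F (a + b) = F a + F b) ∧ (∀ (c : ℂ) a, F (c • a) = c * F a) ∧ F 1 = 1 ∧
    ∀ a, 0 ≤ F (star a * a)}

namespace St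

variable {F : D → ℂ} (hF : F ∈ St D)

include hF

/-- The linear map of a state. -/
def lin : D →ₗ[ℂ] ℂ where
  toFun := F
  map_add' := hF.1
  map_smul' c a := hF.2.1 c a

lemma lin_apply (a : D) : St.lin hF a = F a := rfl

lemma add (a b : D) : F (a + b) = F a + F b := hF.1 a b

lemma smul (c : ℂ) (a : D) : F (c • a) = c * F a := hF.2.1 c a

lemma one : F 1 = 1 := hF.2.2.1

lemma nonneg (a : D) : 0 ≤ F (star a * a) := hF.2.2.2 a

lemma zero : F 0 = 0 := map_zero (St.lin hF)

lemma sub (a b : D) : F (a - b) = F a - F b := map_sub (St.lin hF) a b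

lemma neg (a : D) : F (-a) = -F a := map_neg (St.lin hF) a

lemma sum {ι : Type*} (s : Finset ι) (a : ι → D) : F (∑ i ∈ s, a i) = ∑ i ∈ s, F (a i) :=
  map_sum (St.lin hF) a s

lemma rsmul (r : ℝ) (a : D) : F (r • a) = (r : ℂ) * F a := by
  rw [← Complex.coe_smul, St.smul hF]

attribute [local instance] CStarAlgebra.spectralOrder CStarAlgebra.spectralOrderedRing

/-- The positive map of a state. -/
def pos : D →ₚ[ℂ] ℂ := PositiveLinearMap.mk₀ (St.lin hF) fun x hx => by
  obtain ⟨y, rfl⟩ := CStarAlgebra.nonneg_iff_eq_star_mul_self.1 hx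
  exact hF.2.2.2 y

lemma pos_apply (a : D) : St.pos hF a = F a := rfl

lemma mono {a b : D} (h : a ≤ b) : F a ≤ F b := OrderHomClass.mono (St.pos hF) h

lemma map_star (a : D) : F (star a) = star (F a) := by
  have h := StarHomClass.map_star (St.pos hF) a
  exact h

/-- The two-norm of a state. -/
def nrm (_ : F ∈ St D) (a : D) : ℝ := Real.sqrt (F (star a * a)).re

lemma nrm_eq (a : D) : nrm hF a = ‖(St.pos hF).toPreGNS a‖ := rfl

lemma nrm_nonneg (a : D) : 0 ≤ nrm hF a := Real.sqrt_nonneg _

lemma sq_nrm (a : D) : nrm hF a ^ 2 = (F (star a * a)).re :=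
  Real.sq_sqrt (Complex.nonneg_iff.1 (hF.2.2.2 a)).1

lemma self_eq (a : D) : F (star a * a) = ((nrm hF a ^ 2 : ℝ) : ℂ) := by
  rw [St.sq_nrm hF]
  exact Complex.ext rfl (Complex.nonneg_iff.1 (hF.2.2.2 a)).2.symm

lemma nrm_add_le (a b : D) : nrm hF (a + b) ≤ nrm hF a + nrm hF b := by
  rw [nrm_eq hF, nrm_eq hF, nrm_eq hF, map_add]
  exact norm_add_le _ _

lemma nrm_sub_le (a b : D) : nrm hF (a - b) ≤ nrm hF a + nrm hF b := by
  rw [nrm_eq hF, nrm_eq hF, nrm_eq hF, map_sub]
  exact norm_sub_le _ _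

lemma nrm_smul (c : ℂ) (a : D) : nrm hF (c • a) = ‖c‖ * nrm hF a := by
  rw [nrm_eq hF, nrm_eq hF, map_smul, norm_smul]

lemma nrm_rsmul (r : ℝ) (a : D) : nrm hF (r • a) = |r| * nrm hF a := by
  rw [← Complex.coe_smul, St.nrm_smul hF, Complex.norm_real, Real.norm_eq_abs]

lemma nrm_sum_le {ι : Type*} (s : Finset ι) (a : ι → D) :
    nrm hF (∑ i ∈ s, a i) ≤ ∑ i ∈ s, nrm hF (a i) := by
  simp only [nrm_eq hF, map_sum]
  exact norm_sum_le _ _

lemma cs (a b : D) : ‖F (star a * b)‖ ≤ nrm hF a * nrm hF b :=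
  norm_inner_le_norm (𝕜 := ℂ) ((St.pos hF).toPreGNS a) ((St.pos hF).toPreGNS b)

lemma nrm_one : nrm hF 1 = 1 := by simp [nrm, St.one hF]

lemma conj_le (a x : D) : F (star (a * x) * (a * x)) ≤ ((‖a‖ ^ 2 : ℝ) : ℂ) * F (star x * x) := by
  have h : star (a * x) * (a * x) ≤ (‖a‖ ^ 2 : ℝ) • (star x * x) := by
    have e : star (a * x) * (a * x) = star x * (star a * a) * x := by
      simp only [star_mul, mul_assoc]
    rw [e, sq, ← CStarRing.norm_star_mul_self]
    exact CStarAlgebra.star_left_conjugate_le_norm_smul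
  exact (St.mono hF h).trans_eq (St.rsmul hF _ _)

lemma nrm_mul_le (a x : D) : nrm hF (a * x) ≤ ‖a‖ * nrm hF x := by
  refine Real.sqrt_le_iff.2 ⟨mul_nonneg (norm_nonneg _) (St.nrm_nonneg hF _), ?_⟩
  have h := (Complex.le_def.1 (St.conj_le hF a x)).1
  rw [Complex.re_ofReal_mul] at h
  rwa [mul_pow, St.sq_nrm hF]

lemma nrm_le_norm (a : D) : nrm hF a ≤ ‖a‖ := by
  have := St.nrm_mul_le hF a 1
  rwa [mul_one, St.nrm_one hF, mul_one] at this

lemma norm_le (a : D) : ‖F a‖ ≤ ‖a‖ := by
  have := St.cs hF 1 a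
  rw [star_one, one_mul, St.nrm_one hF, one_mul] at this
  exact this.trans (St.nrm_le_norm hF a)

lemma continuous : Continuous F :=
  (LinearMap.mkContinuous (St.lin hF) 1 fun a => by
    rw [one_mul]; exact St.norm_le hF a).continuous

lemma mul_eq_zero {q : D} (hq : F (star q * q) = 0) (a : D) : F (a * q) = 0 := by
  have h := St.cs hF (star a) q
  rw [star_star] at h
  have h2 : nrm hF q = 0 := by rw [nrm, hq, Complex.zero_re, Real.sqrt_zero]
  rw [h2, mul_zero] at h
  exact norm_le_zero_iff.1 h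

lemma left_zero {q : D} (hq : F (star q * q) = 0) (a : D) : F (star (a * q) * (a * q)) = 0 :=
  le_antisymm ((St.conj_le hF a q).trans (by rw [hq, mul_zero])) (hF.2.2.2 _)

lemma add_zero {p q : D} (hp : F (star p * p) = 0) (hq : F (star q * q) = 0) :
    F (star (p + q) * (p + q)) = 0 := by
  rw [mul_add, St.add hF, St.mul_eq_zero hF hp, St.mul_eq_zero hF hq, _root_.add_zero]

end St

lemma isClosed_St : IsClosed (St D) := by
  simp only [St, Set.ofPred_and, Set.ofPred_forall]
  refine IsClosed.inter ?_ (IsClosed.inter ?_ (IsClosed.inter ?_ ?_))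
  · exact isClosed_iInter fun a => isClosed_iInter fun b =>
      isClosed_eq (continuous_apply _) ((continuous_apply a).add (continuous_apply b))
  · exact isClosed_iInter fun c => isClosed_iInter fun a =>
      isClosed_eq (continuous_apply _) ((continuous_const).mul (continuous_apply a))
  · exact isClosed_eq (continuous_apply _) continuous_const
  · exact isClosed_iInter fun a => isClosed_le continuous_const (continuous_apply _)

lemma isCompact_St : IsCompact (St D) :=
  (isCompact_univ_pi fun a : D => isCompact_closedBall (0 : ℂ) ‖a‖).of_isClosed_subset isClosed_St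
    fun _ hF a _ => by simpa using St.norm_le hF a

lemma convex_St : Convex ℝ (St D) := by
  intro F hF G hG s t hs ht hst
  refine ⟨fun a b => ?_, fun c a => ?_, ?_, fun a => ?_⟩
  · simp only [Pi.add_apply, Pi.smul_apply, St.add hF, St.add hG, Complex.real_smul]; ring
  · simp only [Pi.add_apply, Pi.smul_apply, St.smul hF, St.smul hG, Complex.real_smul]; ring
  · simp only [Pi.add_apply, Pi.smul_apply, St.one hF, St.one hG, Complex.real_smul, mul_one]
    exact_mod_cast hst
  · simp only [Pi.add_apply, Pi.smul_apply, Complex.real_smul]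
    exact add_nonneg (mul_nonneg (Complex.zero_le_real.2 hs) (St.nonneg hF a))
      (mul_nonneg (Complex.zero_le_real.2 ht) (St.nonneg hG a))

/-- Compression of a functional. -/
def comp (x : D) (F : D → ℂ) : D → ℂ := fun a => F (star x * a * x) / F (star x * x)

lemma comp_mem_St {F : D → ℂ} (hF : F ∈ St D) {x : D} (hx : F (star x * x) ≠ 0) :
    comp x F ∈ St D := by
  refine ⟨fun a b => ?_, fun c a => ?_, ?_, fun a => ?_⟩
  · simp only [comp, mul_add, add_mul, St.add hF, add_div]
  · simp only [comp, mul_smul_comm, smul_mul_assoc, St.smul hF, mul_div_assoc]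
  · simp only [comp, mul_one, div_self hx]
  · have e : star x * (star a * a) * x = star (a * x) * (a * x) := by
      simp only [star_mul, mul_assoc]
    simp only [comp, e]
    rw [St.self_eq hF, St.self_eq hF, ← Complex.ofReal_div, Complex.zero_le_real]
    positivity

/-- A state killing the ideal of a non-full element. -/
lemma exists_state {c : D} (hc : ¬ Full ({c} : Set D)) :
    ∃ F ∈ St D, ∀ a b, F (a * c * b) = 0 := by
  have hD : Nontrivial D := by
    by_contra h
    rw [not_nontrivial_iff_subsingleton] at h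
    exact hc (by unfold Full; rw [Subsingleton.elim (1 : D) 0]; exact zero_mem _)
  let I : Submodule ℂ D :=
    { carrier := {x | x ∈ TwoSidedIdeal.span ({c} : Set D)}
      add_mem' := fun {a b} ha hb => (TwoSidedIdeal.span ({c} : Set D)).add_mem ha hb
      zero_mem' := (TwoSidedIdeal.span ({c} : Set D)).zero_mem
      smul_mem' := fun z x hx => by
        show z • x ∈ TwoSidedIdeal.span ({c} : Set D)
        rw [Algebra.smul_def]
        exact TwoSidedIdeal.mul_mem_left _ _ _ hx }
  have hI : ∀ x ∈ I, 1 ≤ ‖1 - x‖ := by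
    intro x hx
    by_contra h
    obtain ⟨v, hv⟩ := isUnit_one_sub_of_norm_lt_one (not_le.1 h)
    rw [sub_sub_cancel] at hv
    refine hc ?_
    unfold Full
    have := TwoSidedIdeal.mul_mem_left (TwoSidedIdeal.span ({c} : Set D)) (↑v⁻¹ : D) x hx
    rwa [← hv, Units.inv_mul] at this
  have h1 : (1 : D) ∉ I := fun h => by
    have := hI 1 h
    rw [sub_self, norm_zero] at this
    linarith
  obtain ⟨g, hg1, hg2⟩ : ∃ g : StrongDual ℂ D, ‖g‖ ≤ 1 ∧ (∀ x ∈ I, g x = 0) ∧ g 1 = 1 := by
    let J : Submodule ℂ D := I.topologicalClosure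
    have hJ : IsClosed (J : Set D) := I.isClosed_topologicalClosure
    have h1J : ∀ x ∈ J, 1 ≤ ‖1 - x‖ := fun x hx =>
      closure_minimal (t := {x : D | 1 ≤ ‖1 - x‖}) hI
        (isClosed_le continuous_const (continuous_const.sub continuous_id).norm) hx
    obtain ⟨g, hg, hgq⟩ := exists_dual_vector'' ℂ (Submodule.Quotient.mk (p := J) (1 : D))
    have hn : ‖(Submodule.Quotient.mk (p := J) (1 : D))‖ = 1 := by
      refine le_antisymm ((Submodule.Quotient.norm_mk_le J 1).trans (le_of_eq norm_one)) ?_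
      have e : ‖(Submodule.Quotient.mk (p := J) (1 : D))‖ =
          Metric.infDist (1 : D) (J.toAddSubgroup : Set D) :=
        QuotientAddGroup.norm_mk (S := J.toAddSubgroup) 1
      rw [e]
      refine (Metric.le_infDist ⟨0, J.zero_mem⟩).2 fun x hx => ?_
      rw [dist_eq_norm]
      exact h1J x hx
    refine ⟨g.comp J.mkQL, ?_, fun x hx => ?_, ?_⟩
    · refine ContinuousLinearMap.opNorm_le_bound _ zero_le_one fun x => ?_
      exact (g.le_opNorm _).trans (mul_le_mul hg (Submodule.Quotient.norm_mk_le J x)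
        (norm_nonneg _) zero_le_one)
    · show g (Submodule.Quotient.mk x) = 0
      rw [(Submodule.Quotient.mk_eq_zero J).2 (I.le_topologicalClosure hx), map_zero]
    · show g (Submodule.Quotient.mk 1) = 1
      rw [hgq, hn]
      simp
  obtain ⟨hgI, hg1'⟩ := hg2
  have hb : ∀ a, ‖g a‖ ≤ ‖a‖ := fun a =>
    (g.le_opNorm a).trans (mul_le_of_le_one_left (norm_nonneg _) hg1)
  have him : ∀ h : D, IsSelfAdjoint h → (g h).im = 0 := by
    intro h hh
    have key : ∀ t : ℝ, ((g h).im + t) ^ 2 ≤ ‖h‖ ^ 2 + t ^ 2 := by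
      intro t
      set w : D := h + ((t : ℂ) * Complex.I) • (1 : D) with hw
      have e : star w * w = h * h + ((t ^ 2 : ℝ) : ℂ) • (1 : D) := by
        have hz : star ((t : ℂ) * Complex.I) = -((t : ℂ) * Complex.I) := by
          simp [Complex.conj_ofReal]
        rw [hw, star_add, hh.star_eq, star_smul, star_one, hz]
        simp only [add_mul, mul_add, smul_mul_assoc, mul_smul_comm, one_mul, mul_one, neg_smul,
          smul_neg, smul_add, smul_smul, neg_mul]
        have e2 : (t : ℂ) * Complex.I * ((t : ℂ) * Complex.I) = -((t ^ 2 : ℝ) : ℂ) := by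
          push_cast; linear_combination ((t : ℂ) ^ 2) * Complex.I_sq
        rw [e2, neg_smul]
        abel
      have h2 : ‖g w‖ ^ 2 ≤ ‖h‖ ^ 2 + t ^ 2 := by
        refine (pow_le_pow_left₀ (norm_nonneg _) (hb w) 2).trans ?_
        rw [sq, ← CStarRing.norm_star_mul_self, e]
        refine (norm_add_le _ _).trans (add_le_add ?_ ?_)
        · rw [sq]; exact norm_mul_le _ _
        · rw [norm_smul, norm_one, mul_one, Complex.norm_real, Real.norm_eq_abs, abs_sq]
      refine le_trans ?_ h2
      rw [hw, map_add, map_smul, hg1']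
      simp [Complex.sq_norm, Complex.normSq_apply]
      nlinarith [mul_self_nonneg (g h).re]
    by_contra hne
    have := key ((‖h‖ ^ 2 + 1) / (g h).im)
    have e : (g h).im * ((‖h‖ ^ 2 + 1) / (g h).im) = ‖h‖ ^ 2 + 1 := mul_div_cancel₀ _ hne
    nlinarith [sq_nonneg (g h).im, sq_nonneg ‖h‖]
  refine ⟨fun a => g a, ⟨map_add g, fun z a => map_smul g z a, hg1', fun a => ?_⟩, fun a b => ?_⟩
  · show (0 : ℂ) ≤ g (star a * a)
    have hi := him _ (IsSelfAdjoint.star_mul_self a)
    have hn : ‖((‖star a * a‖ : ℝ) : ℂ) • (1 : D) - star a * a‖ ≤ ‖star a * a‖ := by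
      let _ : PartialOrder D := CStarAlgebra.spectralOrder D
      have _ : StarOrderedRing D := CStarAlgebra.spectralOrderedRing D
      rw [Complex.coe_smul, ← Algebra.algebraMap_eq_smul_one]
      have h0 : (0 : D) ≤ algebraMap ℝ D ‖star a * a‖ - star a * a :=
        sub_nonneg.2 (IsSelfAdjoint.star_mul_self a).le_algebraMap_norm_self
      refine (CStarAlgebra.norm_le_norm_of_nonneg_of_le h0
        (sub_le_self _ (star_mul_self_nonneg a))).trans ?_
      rw [norm_algebraMap']
      simp
    have h := (hb _).trans hn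
    rw [map_sub, map_smul, hg1', smul_eq_mul, mul_one] at h
    have h2 := (Complex.abs_re_le_norm _).trans h
    rw [Complex.sub_re, Complex.ofReal_re] at h2
    refine Complex.nonneg_iff.2 ⟨?_, hi.symm⟩
    linarith [(abs_le.1 h2).2]
  · exact hgI _ (TwoSidedIdeal.mul_mem_right _ _ _ (TwoSidedIdeal.mul_mem_left _ _ _
      (TwoSidedIdeal.subset_span (Set.mem_singleton c))))

end Vale.Agent.P095.General.Spread
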